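import Vale.Agent.P229.Interface

/-! # P229 block G, module GBASE: sums, derivatives at boundary points, rotations. -/

namespace P229.G

open Set Real Filter Topology
open scoped ContDiff

theorem g_sum_smooth (f : ℕ → ℝ × ℝ → ℝ) (hf : ∀ i, ContDiff ℝ ∞ (f i))
    (hb : ∀ i, ∀ k ≤ i, ∀ x, ‖iteratedFDeriv ℝ k (f i) x‖ ≤ (1 / 2 : ℝ) ^ i) :
    ContDiff ℝ ∞ fun x => ∑' i, f i x := by
  refine contDiff_tsum_of_eventually (v := fun _ i => (1 / 2 : ℝ) ^ i) hf ?_ ?_
  · intro k _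
    exact summable_geometric_of_lt_one (by norm_num) (by norm_num)
  · intro k _
    rw [Nat.cofinite_eq_atTop]
    filter_upwards [eventually_ge_atTop k] with i hi x
    exact hb i k hi x

theorem g_closure {E F : Type*} [NormedAddCommGroup E] [NormedSpace ℝ E] [NormedAddCommGroup F]
    [NormedSpace ℝ F] (f : E → F) (hf : ContDiff ℝ ∞ f) (O : Set E) (hO : IsOpen O) (c : F)
    (h : ∀ x ∈ O, f x = c) (q : E) (hq : q ∈ closure O) : fderiv ℝ f q = 0 ∧ f q = c := by
  have h1 : Continuous (fderiv ℝ f) := hf.continuous_fderiv (by simp)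
  have h2 : IsClosed {x | fderiv ℝ f x = 0} := isClosed_eq h1 continuous_const
  have h3 : IsClosed {x | f x = c} := isClosed_eq hf.continuous continuous_const
  refine ⟨?_, ?_⟩
  · have : O ⊆ {x | fderiv ℝ f x = 0} := by
      intro x hx
      have h4 : f =ᶠ[𝓝 x] fun _ => c := by
        filter_upwards [hO.mem_nhds hx] with y hy
        exact h y hy
      show fderiv ℝ f x = 0
      rw [h4.fderiv_eq]
      simp
    exact (closure_minimal this h2) hq
  · exact (closure_minimal h h3) hq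

/-- rotation of the plane by `-a` -/
noncomputable def rotL (a : ℝ) : (ℝ × ℝ) →L[ℝ] (ℝ × ℝ) :=
  (Real.cos a • ContinuousLinearMap.fst ℝ ℝ ℝ + Real.sin a • ContinuousLinearMap.snd ℝ ℝ ℝ).prod
    (-Real.sin a • ContinuousLinearMap.fst ℝ ℝ ℝ + Real.cos a • ContinuousLinearMap.snd ℝ ℝ ℝ)

theorem rotL_apply (a : ℝ) (x : ℝ × ℝ) :
    rotL a x = (Real.cos a * x.1 + Real.sin a * x.2, -Real.sin a * x.1 + Real.cos a * x.2) := by
  simp [rotL]

theorem rotL_neg_rotL (a : ℝ) (x : ℝ × ℝ) : rotL (-a) (rotL a x) = x := by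
  have h := Real.sin_sq_add_cos_sq a
  rw [rotL_apply, rotL_apply, Real.sin_neg, Real.cos_neg]
  ext
  · show Real.cos a * (Real.cos a * x.1 + Real.sin a * x.2)
      + -Real.sin a * (-Real.sin a * x.1 + Real.cos a * x.2) = x.1
    linear_combination x.1 * h
  · show -(-Real.sin a) * (Real.cos a * x.1 + Real.sin a * x.2)
      + Real.cos a * (-Real.sin a * x.1 + Real.cos a * x.2) = x.2
    linear_combination x.2 * h

/-- rotation as an equivalence -/
noncomputable def rotE (a : ℝ) : (ℝ × ℝ) ≃L[ℝ] (ℝ × ℝ) :=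
  ContinuousLinearEquiv.equivOfInverse (rotL a) (rotL (-a)) (rotL_neg_rotL a) (by
    intro x
    have := rotL_neg_rotL (-a) x
    rwa [neg_neg] at this)

theorem rotE_apply (a : ℝ) (x : ℝ × ℝ) :
    rotE a x = (Real.cos a * x.1 + Real.sin a * x.2, -Real.sin a * x.1 + Real.cos a * x.2) :=
  rotL_apply a x

theorem rotL_norm (a : ℝ) : ‖rotL a‖ ≤ 2 := by
  refine ContinuousLinearMap.opNorm_le_bound _ (by norm_num) fun x => ?_
  rw [rotL_apply, Prod.norm_def]
  have h1 := norm_fst_le x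
  have h2 := norm_snd_le x
  have hc := Real.abs_cos_le_one a
  have hs := Real.abs_sin_le_one a
  have hx := norm_nonneg x
  refine max_le ?_ ?_
  · refine (norm_add_le _ _).trans ?_
    rw [norm_mul, norm_mul, Real.norm_eq_abs (Real.cos a), Real.norm_eq_abs (Real.sin a)]
    have e1 : |Real.cos a| * ‖x.1‖ ≤ 1 * ‖x‖ := by gcongr
    have e2 : |Real.sin a| * ‖x.2‖ ≤ 1 * ‖x‖ := by gcongr
    linarith
  · refine (norm_add_le _ _).trans ?_
    rw [norm_mul, norm_mul, norm_neg, Real.norm_eq_abs (Real.cos a), Real.norm_eq_abs (Real.sin a)]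
    have e1 : |Real.sin a| * ‖x.1‖ ≤ 1 * ‖x‖ := by gcongr
    have e2 : |Real.cos a| * ‖x.2‖ ≤ 1 * ‖x‖ := by gcongr
    linarith

/-- derivatives of `f (L (x - p))` -/
theorem g_comp_bound {F : Type*} [NormedAddCommGroup F] [NormedSpace ℝ F] (f : ℝ × ℝ → F)
    (L : (ℝ × ℝ) ≃L[ℝ] (ℝ × ℝ)) (p : ℝ × ℝ) (n : ℕ) (x : ℝ × ℝ) (C : ℝ)
    (hL : ‖(L : (ℝ × ℝ) →L[ℝ] (ℝ × ℝ))‖ ≤ 2)
    (h : ‖iteratedFDeriv ℝ n f (p + L x)‖ ≤ C) :
    ‖iteratedFDeriv ℝ n (fun y => f (p + L y)) x‖ ≤ C * 2 ^ n := by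
  have h1 : iteratedFDeriv ℝ n (fun y => f (p + L y)) x
      = (iteratedFDeriv ℝ n (fun z => f (p + z)) (L x)).compContinuousLinearMap fun _ => L := by
    have := L.iteratedFDerivWithin_comp_right (fun z => f (p + z)) uniqueDiffOn_univ
      (mem_univ (L x)) n
    rw [preimage_univ, iteratedFDerivWithin_univ, iteratedFDerivWithin_univ] at this
    exact this
  rw [h1, iteratedFDeriv_comp_add_left]
  refine (ContinuousMultilinearMap.norm_compContinuousLinearMap_le _ _).trans ?_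
  rw [Finset.prod_const, Finset.card_univ, Fintype.card_fin]
  have h0 := norm_nonneg (iteratedFDeriv ℝ n f (p + L x))
  exact mul_le_mul h (pow_le_pow_left₀ (norm_nonneg _) hL n) (by positivity) (h0.trans h)

/-- a nonzero symmetric matrix is nondegenerate and diagonal in some rotated frame -/
theorem g_rot_exists (h11 h12 h22 : ℝ) (h : ¬ (h11 = 0 ∧ h12 = 0 ∧ h22 = 0)) : ∃ a : ℝ,
    Real.cos a ^ 2 * h11 + 2 * Real.cos a * Real.sin a * h12 + Real.sin a ^ 2 * h22 ≠ 0 ∧
    -(Real.cos a * Real.sin a) * h11 + (Real.cos a ^ 2 - Real.sin a ^ 2) * h12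
      + Real.cos a * Real.sin a * h22 = 0 := by
  set g : ℝ → ℝ := fun a => -(Real.cos a * Real.sin a) * h11
    + (Real.cos a ^ 2 - Real.sin a ^ 2) * h12 + Real.cos a * Real.sin a * h22 with hg
  have hc : Continuous g := by rw [hg]; fun_prop
  have g0 : g 0 = h12 := by simp [hg]
  have g1 : g (Real.pi / 2) = -h12 := by simp [hg]
  obtain ⟨a, ha⟩ : ∃ a, g a = 0 := by
    rcases le_total h12 0 with h3 | h3
    · have := intermediate_value_Icc (a := 0) (b := Real.pi / 2) (by positivity) hc.continuousOn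
      obtain ⟨a, _, ha⟩ := this (show (0 : ℝ) ∈ Icc (g 0) (g (Real.pi / 2)) by
        rw [g0, g1]; constructor <;> linarith)
      exact ⟨a, ha⟩
    · have := intermediate_value_Icc' (a := 0) (b := Real.pi / 2) (by positivity) hc.continuousOn
      obtain ⟨a, _, ha⟩ := this (show (0 : ℝ) ∈ Icc (g (Real.pi / 2)) (g 0) by
        rw [g0, g1]; constructor <;> linarith)
      exact ⟨a, ha⟩
  have hsc := Real.sin_sq_add_cos_sq a
  set c := Real.cos a
  set s := Real.sin a
  have ha' : -(c * s) * h11 + (c ^ 2 - s ^ 2) * h12 + c * s * h22 = 0 := ha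
  by_cases h4 : c ^ 2 * h11 + 2 * c * s * h12 + s ^ 2 * h22 = 0
  · by_cases h5 : s ^ 2 * h11 - 2 * c * s * h12 + c ^ 2 * h22 = 0
    · exfalso
      apply h
      refine ⟨?_, ?_, ?_⟩
      · linear_combination c ^ 2 * h4 + s ^ 2 * h5 - 2 * c * s * ha'
          - h11 * (s ^ 2 + c ^ 2 + 1) * hsc
      · linear_combination c * s * h4 - c * s * h5 + (c ^ 2 - s ^ 2) * ha'
          - h12 * (s ^ 2 + c ^ 2 + 1) * hsc
      · linear_combination s ^ 2 * h4 + c ^ 2 * h5 + 2 * c * s * ha'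
          - h22 * (s ^ 2 + c ^ 2 + 1) * hsc
    · refine ⟨a + Real.pi / 2, ?_, ?_⟩
      · rw [Real.cos_add_pi_div_two, Real.sin_add_pi_div_two]
        intro h6
        apply h5
        linear_combination h6
      · rw [Real.cos_add_pi_div_two, Real.sin_add_pi_div_two]
        linear_combination -ha'
  · exact ⟨a, h4, ha'⟩

end P229.G
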