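import Vale.Agent.P229.G.Norm

/-! # P229 block G, module GDISC: if the second derivatives of the immersion vanish on a circle and
`g_11 = 1` in the disc then `g_22 = 1` at the centre.  The curves `x_2 = const` have length equal to
the distance of their end points, so they are straight segments. -/

namespace P229.G

open Set Real Filter Topology
open scoped ContDiff

/-- the circle -/
noncomputable def gam (c : ℝ × ℝ) (s θ : ℝ) : ℝ × ℝ :=
  (c.1 + s * Real.cos θ, c.2 + s * Real.sin θ)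

theorem gd_hasDeriv (c : ℝ × ℝ) (s θ : ℝ) :
    HasDerivAt (gam c s) (-(s * Real.sin θ), s * Real.cos θ) θ := by
  have h1 : HasDerivAt (fun θ => c.1 + s * Real.cos θ) (-(s * Real.sin θ)) θ := by
    have := ((Real.hasDerivAt_cos θ).const_mul s).const_add c.1
    rwa [mul_neg] at this
  have h2 : HasDerivAt (fun θ => c.2 + s * Real.sin θ) (s * Real.cos θ) θ :=
    ((Real.hasDerivAt_sin θ).const_mul s).const_add c.2
  exact h1.prodMk h2

theorem gd_exists_angle (u v s : ℝ) (hs : 0 < s) (h : u ^ 2 + v ^ 2 = s ^ 2) :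
    ∃ θ : ℝ, s * Real.cos θ = u ∧ s * Real.sin θ = v := by
  refine ⟨Complex.arg ⟨u, v⟩, ?_, ?_⟩
  · have h1 : ‖(⟨u, v⟩ : ℂ)‖ = s := by
      rw [Complex.norm_def, Complex.normSq_mk, show u * u + v * v = s ^ 2 by rw [← h]; ring,
        Real.sqrt_sq hs.le]
    have := Complex.norm_mul_cos_arg (⟨u, v⟩ : ℂ)
    rw [h1] at this
    exact this
  · have h1 : ‖(⟨u, v⟩ : ℂ)‖ = s := by
      rw [Complex.norm_def, Complex.normSq_mk, show u * u + v * v = s ^ 2 by rw [← h]; ring,
        Real.sqrt_sq hs.le]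
    have := Complex.norm_mul_sin_arg (⟨u, v⟩ : ℂ)
    rw [h1] at this
    exact this

theorem gd_disc (Φ : ℝ × ℝ → E3) (E F G : ℝ × ℝ → ℝ) (U : Set (ℝ × ℝ)) (hU : IsOpen U)
    (h : IsoOn Φ E F G U) (c : ℝ × ℝ) (s : ℝ) (hs : 0 < s)
    (hK : ∀ x : ℝ × ℝ, (x.1 - c.1) ^ 2 + (x.2 - c.2) ^ 2 ≤ s ^ 2 → x ∈ U)
    (h2 : ∀ θ, fderiv ℝ (fderiv ℝ Φ) (gam c s θ) = 0)
    (hE : ∀ x : ℝ × ℝ, (x.1 - c.1) ^ 2 + (x.2 - c.2) ^ 2 < s ^ 2 → E x = 1)
    (hE0 : E (gam c s 0) = 1) (hG0 : G (gam c s 0) = 1) : G c = 1 := by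
  have hγU : ∀ θ, gam c s θ ∈ U := by
    intro θ
    apply hK
    have := Real.sin_sq_add_cos_sq θ
    show (c.1 + s * Real.cos θ - c.1) ^ 2 + (c.2 + s * Real.sin θ - c.2) ^ 2 ≤ s ^ 2
    nlinarith
  have hdΦ : ∀ x ∈ U, HasFDerivAt Φ (fderiv ℝ Φ x) x := fun x hx =>
    ((h.smooth.contDiffAt (hU.mem_nhds hx)).differentiableAt (by simp)).hasFDerivAt
  have hddΦ : ∀ x ∈ U, HasFDerivAt (fderiv ℝ Φ) (fderiv ℝ (fderiv ℝ Φ) x) x := by
    intro x hx
    have h1 : ContDiffOn ℝ ∞ (fderiv ℝ Φ) U := h.smooth.fderiv_of_isOpen hU (by simp)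
    exact ((h1.contDiffAt (hU.mem_nhds hx)).differentiableAt (by simp)).hasFDerivAt
  -- `fderiv Φ` is constant on the circle
  have hL : ∀ θ, fderiv ℝ Φ (gam c s θ) = fderiv ℝ Φ (gam c s 0) := by
    intro θ
    have h3 : ∀ t, HasDerivAt (fun t => fderiv ℝ Φ (gam c s t)) 0 t := by
      intro t
      have := (hddΦ _ (hγU t)).comp_hasDerivAt t (gd_hasDeriv c s t)
      rw [h2 t, zero_apply] at this
      exact this
    exact is_const_of_deriv_eq_zero (fun t => (h3 t).differentiableAt) (fun t => (h3 t).deriv) θ 0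
  set L := fderiv ℝ Φ (gam c s 0) with hLdef
  have hK0 : ∀ θ, Φ (gam c s θ) - L (gam c s θ) = Φ (gam c s 0) - L (gam c s 0) := by
    intro θ
    have h3 : ∀ t, HasDerivAt (fun t => Φ (gam c s t) - L (gam c s t)) 0 t := by
      intro t
      have e1 := (hdΦ _ (hγU t)).comp_hasDerivAt t (gd_hasDeriv c s t)
      have e2 := L.hasFDerivAt.comp_hasDerivAt t (gd_hasDeriv c s t)
      rw [hL t] at e1
      have := e1.sub e2
      rw [sub_self] at this
      exact this
    exact is_const_of_deriv_eq_zero (fun t => (h3 t).differentiableAt) (fun t => (h3 t).deriv) θ 0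
  set K0 := Φ (gam c s 0) - L (gam c s 0) with hK0def
  set a0 := L (1, 0) with ha0
  have ha0n : inner ℝ a0 a0 = 1 := by
    rw [← hE0]
    exact h.e11 _ (hγU 0)
  -- the chord argument
  have key : ∀ x : ℝ × ℝ, (x.1 - c.1) ^ 2 + (x.2 - c.2) ^ 2 < s ^ 2 → Φ x - L x = K0 := by
    intro x hx
    set y := x.2 - c.2 with hy
    have hpos : 0 < s ^ 2 - y ^ 2 := by nlinarith [sq_nonneg (x.1 - c.1)]
    set hh := Real.sqrt (s ^ 2 - y ^ 2) with hhdef
    have hh0 : 0 < hh := Real.sqrt_pos.mpr hpos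
    have hhsq : hh ^ 2 = s ^ 2 - y ^ 2 := Real.sq_sqrt hpos.le
    have hxt : |x.1 - c.1| < hh := by
      rw [hhdef, ← Real.sqrt_sq_eq_abs]
      exact Real.sqrt_lt_sqrt (sq_nonneg _) (by linarith)
    obtain ⟨θ1, c1, s1⟩ := gd_exists_angle hh y s hs (by linarith)
    obtain ⟨θ2, c2, s2⟩ := gd_exists_angle (-hh) y s hs (by nlinarith)
    have hP1 : gam c s θ1 = (c.1 + hh, x.2) := by
      rw [gam, c1, s1]
      ext
      · rfl
      · show c.2 + y = x.2
        rw [hy]; ring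
    have hP2 : gam c s θ2 = (c.1 + -hh, x.2) := by
      rw [gam, c2, s2]
      ext
      · rfl
      · show c.2 + y = x.2
        rw [hy]; ring
    set l : ℝ → ℝ × ℝ := fun t => (c.1 + t, x.2) with hl
    have hld : ∀ t, HasDerivAt l ((1, 0) : ℝ × ℝ) t := fun t =>
      ((hasDerivAt_id t).const_add c.1).prodMk (hasDerivAt_const t x.2)
    have hlin : ∀ t, -hh < t → t < hh →
        ((l t).1 - c.1) ^ 2 + ((l t).2 - c.2) ^ 2 < s ^ 2 := by
      intro t ht1 ht2
      have : t ^ 2 < hh ^ 2 := sq_lt_sq' ht1 ht2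
      show (c.1 + t - c.1) ^ 2 + (x.2 - c.2) ^ 2 < s ^ 2
      rw [← hy]
      nlinarith
    have hlU : ∀ t ∈ Icc (-hh) hh, l t ∈ U := by
      intro t ht
      apply hK
      have : t ^ 2 ≤ hh ^ 2 := sq_le_sq' ht.1 ht.2
      show (c.1 + t - c.1) ^ 2 + (x.2 - c.2) ^ 2 ≤ s ^ 2
      rw [← hy]
      nlinarith
    have hΦl : ∀ t ∈ Icc (-hh) hh, HasDerivAt (fun t => Φ (l t)) (pa Φ (l t)) t := by
      intro t ht
      exact (hdΦ _ (hlU t ht)).comp_hasDerivAt t (hld t)
    set g : ℝ → ℝ := fun t => t - inner ℝ a0 (Φ (l t)) with hg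
    have hgd : ∀ t ∈ Icc (-hh) hh, HasDerivAt g (1 - inner ℝ a0 (pa Φ (l t))) t := by
      intro t ht
      have e1 : HasDerivAt (fun t => inner ℝ a0 (Φ (l t))) (inner ℝ a0 (pa Φ (l t))) t := by
        have := (hasDerivAt_const t a0).inner ℝ (hΦl t ht)
        simpa using this
      exact (hasDerivAt_id t).sub e1
    have hle : ∀ t, -hh < t → t < hh → inner ℝ a0 (pa Φ (l t)) ≤ 1 := by
      intro t ht1 ht2
      have e1 := h.e11 (l t) (hlU t ⟨ht1.le, ht2.le⟩)
      rw [hE _ (hlin t ht1 ht2)] at e1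
      have e2 : 0 ≤ inner ℝ (pa Φ (l t) - a0) (pa Φ (l t) - a0) := real_inner_self_nonneg
      rw [inner_sub_left, inner_sub_right, inner_sub_right, e1, ha0n,
        real_inner_comm a0 (pa Φ (l t))] at e2
      linarith
    have hmono : MonotoneOn g (Icc (-hh) hh) := by
      refine monotoneOn_of_deriv_nonneg (convex_Icc _ _)
        (fun t ht => (hgd t ht).continuousAt.continuousWithinAt) ?_ ?_
      · rw [interior_Icc]
        exact fun t ht => (hgd t ⟨ht.1.le, ht.2.le⟩).differentiableAt.differentiableWithinAt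
      · rw [interior_Icc]
        intro t ht
        rw [(hgd t ⟨ht.1.le, ht.2.le⟩).deriv]
        linarith [hle t ht.1 ht.2]
    have hends : g (-hh) = g hh := by
      have e1 := hK0 θ1
      have e2 := hK0 θ2
      rw [hP1] at e1
      rw [hP2] at e2
      have e3 : Φ (c.1 + hh, x.2) - Φ (c.1 + -hh, x.2) = (2 * hh) • a0 := by
        have e4 : Φ (c.1 + hh, x.2) - Φ (c.1 + -hh, x.2)
            = L (c.1 + hh, x.2) - L (c.1 + -hh, x.2) := by
          rw [eq_add_of_sub_eq e1, eq_add_of_sub_eq e2]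
          abel
        rw [e4, ← map_sub, ha0, ← map_smul]
        congr 1
        ext
        · simp; ring
        · simp
      have e4 : inner ℝ a0 (Φ (l hh)) - inner ℝ a0 (Φ (l (-hh))) = 2 * hh := by
        rw [← inner_sub_right]
        show inner ℝ a0 (Φ (c.1 + hh, x.2) - Φ (c.1 + -hh, x.2)) = 2 * hh
        rw [e3, inner_smul_right, ha0n, mul_one]
      show -hh - inner ℝ a0 (Φ (l (-hh))) = hh - inner ℝ a0 (Φ (l hh))
      linarith
    have hconst : ∀ t ∈ Icc (-hh) hh, g t = g hh := by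
      intro t ht
      apply le_antisymm
      · exact hmono ht ⟨by linarith, le_rfl⟩ ht.2
      · rw [← hends]
        exact hmono ⟨le_rfl, by linarith⟩ ht ht.1
    have hpa : ∀ t, -hh < t → t < hh → pa Φ (l t) = a0 := by
      intro t ht1 ht2
      have e1 : g =ᶠ[𝓝 t] fun _ => g hh := by
        filter_upwards [Icc_mem_nhds ht1 ht2] with τ hτ
        exact hconst τ hτ
      have e2 : deriv g t = 0 := by
        rw [e1.deriv_eq]
        simp
      rw [(hgd t ⟨ht1.le, ht2.le⟩).deriv] at e2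
      have e3 := h.e11 (l t) (hlU t ⟨ht1.le, ht2.le⟩)
      rw [hE _ (hlin t ht1 ht2)] at e3
      have e4 : inner ℝ (pa Φ (l t) - a0) (pa Φ (l t) - a0) = 0 := by
        rw [inner_sub_left, inner_sub_right, inner_sub_right, e3, ha0n,
          real_inner_comm a0 (pa Φ (l t))]
        linarith
      have e5 := inner_self_eq_zero.mp e4
      exact sub_eq_zero.mp e5
    have hΨ : ∀ t ∈ Icc (-hh) hh, Φ (l t) - L (l t) = Φ (l (-hh)) - L (l (-hh)) := by
      have hd : ∀ t ∈ Icc (-hh) hh,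
          HasDerivAt (fun t => Φ (l t) - L (l t)) (pa Φ (l t) - a0) t := fun t ht =>
        (hΦl t ht).sub (L.hasFDerivAt.comp_hasDerivAt t (hld t))
      refine constant_of_has_deriv_right_zero
        (fun t ht => (hd t ht).continuousAt.continuousWithinAt) ?_
      intro t ht
      have e1 := hd t ⟨ht.1, ht.2.le⟩
      have e2 : pa Φ (l t) - a0 = 0 := by
        rcases eq_or_lt_of_le ht.1 with e3 | e3
        · rw [← e3]
          show fderiv ℝ Φ (c.1 + -hh, x.2) (1, 0) - a0 = 0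
          rw [← hP2, hL θ2, sub_self]
        · rw [hpa t e3 ht.2, sub_self]
      rw [e2] at e1
      exact e1.hasDerivWithinAt
    have hx' := abs_lt.mp hxt
    have e1 := hΨ (x.1 - c.1) ⟨hx'.1.le, hx'.2.le⟩
    have e2 : l (x.1 - c.1) = x := by
      show (c.1 + (x.1 - c.1), x.2) = x
      ext
      · show c.1 + (x.1 - c.1) = x.1
        ring
      · rfl
    rw [e2] at e1
    rw [e1]
    show Φ (c.1 + -hh, x.2) - L (c.1 + -hh, x.2) = K0
    rw [← hP2]
    exact hK0 θ2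
  have hcU : c ∈ U := hK c (by simp; positivity)
  have hO : {x : ℝ × ℝ | (x.1 - c.1) ^ 2 + (x.2 - c.2) ^ 2 < s ^ 2} ∈ 𝓝 c := by
    apply IsOpen.mem_nhds
    · exact isOpen_lt (by fun_prop) continuous_const
    · show (c.1 - c.1) ^ 2 + (c.2 - c.2) ^ 2 < s ^ 2
      simp
      positivity
  have e1 : (fun x => Φ x - L x) =ᶠ[𝓝 c] fun _ => K0 := by
    filter_upwards [hO] with x hx
    exact key x hx
  have e2 : HasFDerivAt (fun x => Φ x - L x) (fderiv ℝ Φ c - L) c :=
    (hdΦ c hcU).sub L.hasFDerivAt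
  have e3 : fderiv ℝ Φ c - L = 0 := by
    rw [← e2.fderiv, e1.fderiv_eq]
    simp
  have e4 : fderiv ℝ Φ c = L := sub_eq_zero.mp e3
  rw [← h.e22 c hcU, ← hG0, ← h.e22 _ (hγU 0)]
  unfold pb
  rw [e4]

end P229.G
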