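import Vale.Agent.P229.G.Norm

/-! # P229 block G, module GLIM: from a nonzero second fundamental form at a point `q` where the
metric is Euclidean to bad maps of gadgets accumulating at `q`. -/

namespace P229.G

open Set Real Filter Topology
open scoped ContDiff

/-- first vector of the rotated frame -/
noncomputable def ru (a : ℝ) : ℝ × ℝ := (Real.cos a, Real.sin a)

/-- second vector of the rotated frame -/
noncomputable def rv (a : ℝ) : ℝ × ℝ := (-Real.sin a, Real.cos a)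

theorem rotE_neg_fst (a : ℝ) : rotE (-a) (1, 0) = ru a := by
  rw [rotE_apply, Real.cos_neg, Real.sin_neg, ru]
  ext <;> simp

theorem rotE_neg_snd (a : ℝ) : rotE (-a) (0, 1) = rv a := by
  rw [rotE_apply, Real.cos_neg, Real.sin_neg, rv]
  ext <;> simp

theorem gl_expand (S : (ℝ × ℝ) →L[ℝ] (ℝ × ℝ) →L[ℝ] E3) (hS : S (0, 1) (1, 0) = S (1, 0) (0, 1))
    (v w : ℝ × ℝ) : S v w = (v.1 * w.1) • S (1, 0) (1, 0)
      + (v.1 * w.2 + v.2 * w.1) • S (1, 0) (0, 1) + (v.2 * w.2) • S (0, 1) (0, 1) := by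
  have hv : v = v.1 • ((1, 0) : ℝ × ℝ) + v.2 • ((0, 1) : ℝ × ℝ) := by
    ext <;> simp
  have hw : w = w.1 • ((1, 0) : ℝ × ℝ) + w.2 • ((0, 1) : ℝ × ℝ) := by
    ext <;> simp
  conv_lhs => rw [hv, hw]
  simp only [map_add, map_smul, add_apply, smul_apply, hS]
  module

/-- a good normal and a good orientation from a dense sequence -/
theorem gl_orient (al : ℕ → ℝ) (hal : DenseRange al) (a b : E3)
    (S : (ℝ × ℝ) →L[ℝ] (ℝ × ℝ) →L[ℝ] E3) (hS : S (0, 1) (1, 0) = S (1, 0) (0, 1))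
    (hn : ∀ v w, inner ℝ a (S v w) = 0 ∧ inner ℝ b (S v w) = 0) (h : S ≠ 0) :
    ∃ (ν : E3) (o : ℕ), ‖ν‖ = 1 ∧ inner ℝ a ν = 0 ∧ inner ℝ b ν = 0 ∧
      0 < inner ℝ ν (S (ru (al o)) (ru (al o))) ∧
      |inner ℝ ν (S (ru (al o)) (rv (al o)))| <
        1 / 100 * inner ℝ ν (S (ru (al o)) (ru (al o))) := by
  obtain ⟨ν, hν1, hνa, hνb, hne⟩ : ∃ ν : E3, ‖ν‖ = 1 ∧ inner ℝ a ν = 0 ∧ inner ℝ b ν = 0 ∧
      ¬ (inner ℝ ν (S (1, 0) (1, 0)) = 0 ∧ inner ℝ ν (S (1, 0) (0, 1)) = 0 ∧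
        inner ℝ ν (S (0, 1) (0, 1)) = 0) := by
    by_contra hcon
    push Not at hcon
    have hz : ∀ v w, inner ℝ a (S v w) = 0 ∧ inner ℝ b (S v w) = 0 →
        (S v w = S (1, 0) (1, 0) ∨ S v w = S (1, 0) (0, 1) ∨ S v w = S (0, 1) (0, 1)) →
        S v w = 0 := by
      intro v w h1 h2
      by_contra h3
      have h4 : ‖S v w‖ ≠ 0 := norm_ne_zero_iff.mpr h3
      have h5 := hcon ((‖S v w‖)⁻¹ • S v w) (by
        rw [norm_smul, norm_inv, norm_norm, inv_mul_cancel₀ h4])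
        (by rw [inner_smul_right, h1.1, mul_zero]) (by rw [inner_smul_right, h1.2, mul_zero])
      have h6 : inner ℝ ((‖S v w‖)⁻¹ • S v w) (S v w) ≠ 0 := by
        rw [real_inner_smul_left, real_inner_self_eq_norm_sq]
        positivity
      obtain ⟨k1, k2, k3⟩ := h5
      rcases h2 with h2 | h2 | h2
      · rw [h2] at h6 k1; exact h6 k1
      · rw [h2] at h6 k2; exact h6 k2
      · rw [h2] at h6 k3; exact h6 k3
    apply h
    have e1 := hz (1, 0) (1, 0) (hn _ _) (Or.inl rfl)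
    have e2 := hz (1, 0) (0, 1) (hn _ _) (Or.inr (Or.inl rfl))
    have e3 := hz (0, 1) (0, 1) (hn _ _) (Or.inr (Or.inr rfl))
    refine ContinuousLinearMap.ext fun v => ContinuousLinearMap.ext fun w => ?_
    rw [gl_expand S hS v w, e1, e2, e3]
    simp
  have hXX : ∀ (ν : E3) (t : ℝ), inner ℝ ν (S (ru t) (ru t)) =
      Real.cos t ^ 2 * inner ℝ ν (S (1, 0) (1, 0))
      + 2 * Real.cos t * Real.sin t * inner ℝ ν (S (1, 0) (0, 1))
      + Real.sin t ^ 2 * inner ℝ ν (S (0, 1) (0, 1)) := by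
    intro ν t
    rw [gl_expand S hS]
    simp only [inner_add_right, inner_smul_right, ru]
    ring
  have hXY : ∀ (ν : E3) (t : ℝ), inner ℝ ν (S (ru t) (rv t)) =
      -(Real.cos t * Real.sin t) * inner ℝ ν (S (1, 0) (1, 0))
      + (Real.cos t ^ 2 - Real.sin t ^ 2) * inner ℝ ν (S (1, 0) (0, 1))
      + Real.cos t * Real.sin t * inner ℝ ν (S (0, 1) (0, 1)) := by
    intro ν t
    rw [gl_expand S hS]
    simp only [inner_add_right, inner_smul_right, ru, rv]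
    ring
  obtain ⟨t0, ht1, ht2⟩ := g_rot_exists _ _ _ hne
  obtain ⟨ν', h1', ha', hb', hp1, hp2⟩ : ∃ ν' : E3, ‖ν'‖ = 1 ∧ inner ℝ a ν' = 0 ∧
      inner ℝ b ν' = 0 ∧ 0 < inner ℝ ν' (S (ru t0) (ru t0)) ∧
      inner ℝ ν' (S (ru t0) (rv t0)) = 0 := by
    rw [← hXX] at ht1
    rw [← hXY] at ht2
    rcases lt_or_gt_of_ne ht1 with h3 | h3
    · refine ⟨-ν, by rw [norm_neg, hν1], by rw [inner_neg_right, hνa, neg_zero],
        by rw [inner_neg_right, hνb, neg_zero], ?_, ?_⟩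
      · rw [inner_neg_left]; linarith
      · rw [inner_neg_left, ht2, neg_zero]
    · exact ⟨ν, hν1, hνa, hνb, h3, ht2⟩
  have hc1 : Continuous fun t => inner ℝ ν' (S (ru t) (ru t)) := by
    simp only [hXX]
    fun_prop
  have hc2 : Continuous fun t => inner ℝ ν' (S (ru t) (rv t)) := by
    simp only [hXY]
    fun_prop
  have hopen : IsOpen {t | |inner ℝ ν' (S (ru t) (rv t))| <
      1 / 100 * inner ℝ ν' (S (ru t) (ru t))} :=
    isOpen_lt hc2.abs (continuous_const.mul hc1)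
  obtain ⟨o, ho⟩ := hal.exists_mem_open hopen ⟨t0, by
    show |inner ℝ ν' (S (ru t0) (rv t0))| < 1 / 100 * inner ℝ ν' (S (ru t0) (ru t0))
    rw [hp2, abs_zero]
    positivity⟩
  have ho' : |inner ℝ ν' (S (ru (al o)) (rv (al o)))| <
      1 / 100 * inner ℝ ν' (S (ru (al o)) (ru (al o))) := ho
  refine ⟨ν', o, h1', ha', hb', ?_, ho'⟩
  have := abs_nonneg (inner ℝ ν' (S (ru (al o)) (rv (al o))))
  linarith

/-- nearby points have good normals -/
theorem gl_near (A B HX HY : ℝ × ℝ → E3) (q : ℝ × ℝ) (cA : ContinuousAt A q)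
    (cB : ContinuousAt B q) (cX : ContinuousAt HX q) (cY : ContinuousAt HY q) (ν : E3)
    (hν : ‖ν‖ = 1) (hA : inner ℝ (A q) (A q) = 1) (hB : inner ℝ (B q) (B q) = 1)
    (nA : inner ℝ (A q) ν = 0) (nB : inner ℝ (B q) ν = 0) (hX : 0 < inner ℝ ν (HX q))
    (hY : |inner ℝ ν (HY q)| < 1 / 100 * inner ℝ ν (HX q)) :
    ∃ κ : ℝ, 0 < κ ∧ ∀ᶠ x in 𝓝 q, inner ℝ (A x) (B x) = 0 → ∃ ν' : E3, ‖ν'‖ = 1 ∧
      inner ℝ ν' (A x) = 0 ∧ inner ℝ ν' (B x) = 0 ∧ κ ≤ inner ℝ ν' (HX x) ∧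
      |inner ℝ ν' (HY x)| ≤ 1 / 100 * inner ℝ ν' (HX x) := by
  set n : ℝ × ℝ → E3 := fun x => ν - (inner ℝ (A x) ν / inner ℝ (A x) (A x)) • A x
    - (inner ℝ (B x) ν / inner ℝ (B x) (B x)) • B x with hn
  have cAA : ContinuousAt (fun x => inner ℝ (A x) (A x)) q := cA.inner cA
  have cBB : ContinuousAt (fun x => inner ℝ (B x) (B x)) q := cB.inner cB
  have cAν : ContinuousAt (fun x => inner ℝ (A x) ν) q := cA.inner continuousAt_const
  have cBν : ContinuousAt (fun x => inner ℝ (B x) ν) q := cB.inner continuousAt_const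
  have cn : ContinuousAt n q := by
    refine ContinuousAt.sub (ContinuousAt.sub continuousAt_const ?_) ?_
    · exact (cAν.div cAA (by rw [hA]; norm_num)).smul cA
    · exact (cBν.div cBB (by rw [hB]; norm_num)).smul cB
  have nq : n q = ν := by
    simp only [hn, nA, nB, zero_div, zero_smul, sub_zero]
  have cnn : ContinuousAt (fun x => ‖n x‖) q := cn.norm
  have cm : ContinuousAt (fun x => (‖n x‖)⁻¹ • n x) q :=
    (cnn.inv₀ (by rw [nq, hν]; norm_num)).smul cn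
  have mq : (‖n q‖)⁻¹ • n q = ν := by rw [nq, hν]; simp
  have c1 : ContinuousAt (fun x => inner ℝ ((‖n x‖)⁻¹ • n x) (HX x)) q := cm.inner cX
  have c2 : ContinuousAt (fun x => inner ℝ ((‖n x‖)⁻¹ • n x) (HY x)) q := cm.inner cY
  refine ⟨inner ℝ ν (HX q) / 2, by positivity, ?_⟩
  have k1 : ∀ᶠ x in 𝓝 q, inner ℝ ν (HX q) / 2 < inner ℝ ((‖n x‖)⁻¹ • n x) (HX x) := by
    refine continuousAt_const.eventually_lt c1 ?_
    rw [mq]; linarith
  have k2 : ∀ᶠ x in 𝓝 q, |inner ℝ ((‖n x‖)⁻¹ • n x) (HY x)| <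
      1 / 100 * inner ℝ ((‖n x‖)⁻¹ • n x) (HX x) := by
    refine c2.abs.eventually_lt (continuousAt_const.mul c1) ?_
    rw [mq]; exact hY
  have k3 : ∀ᶠ x in 𝓝 q, 0 < ‖n x‖ := by
    refine continuousAt_const.eventually_lt cnn ?_
    rw [nq, hν]; norm_num
  have k4 : ∀ᶠ x in 𝓝 q, 0 < inner ℝ (A x) (A x) := by
    refine continuousAt_const.eventually_lt cAA ?_
    rw [hA]; norm_num
  have k5 : ∀ᶠ x in 𝓝 q, 0 < inner ℝ (B x) (B x) := by
    refine continuousAt_const.eventually_lt cBB ?_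
    rw [hB]; norm_num
  filter_upwards [k1, k2, k3, k4, k5] with x h1 h2 h3 h4 h5 hAB
  have hBA : inner ℝ (B x) (A x) = 0 := by rw [real_inner_comm]; exact hAB
  refine ⟨(‖n x‖)⁻¹ • n x, ?_, ?_, ?_, h1.le, h2.le⟩
  · rw [norm_smul, norm_inv, norm_norm, inv_mul_cancel₀ h3.ne']
  · rw [real_inner_smul_left]
    have : inner ℝ (n x) (A x) = 0 := by
      simp only [hn, inner_sub_left, real_inner_smul_left, hBA, mul_zero, sub_zero]
      rw [div_mul_cancel₀ _ h4.ne', real_inner_comm, sub_self]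
    rw [this, mul_zero]
  · rw [real_inner_smul_left]
    have : inner ℝ (n x) (B x) = 0 := by
      simp only [hn, inner_sub_left, real_inner_smul_left, hAB, mul_zero, sub_zero]
      rw [div_mul_cancel₀ _ h5.ne', real_inner_comm, sub_self]
    rw [this, mul_zero]

/-- the bad map of a gadget -/
theorem gl_bad (Φ : ℝ × ℝ → E3) (E F G : ℝ × ℝ → ℝ) (U : Set (ℝ × ℝ)) (hU : IsOpen U)
    (h : IsoOn Φ E F G U) (r : ℝ) (k b : ℕ) (a C0 M : ℝ) (p : ℝ × ℝ) (hr : 0 < r)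
    (hC : 16 * M ≤ C0)
    (hpU : ∀ w ∈ Metric.ball (0 : ℝ × ℝ) (3 * r), p + rotE (-a) w ∈ U)
    (hE : ∀ w ∈ Metric.ball (0 : ℝ × ℝ) (3 * r), E (p + rotE (-a) w)
      = 1 + (Bgad ⟨r, k, b⟩ w.1 w.2 ^ 2 - 1) * Real.sin a ^ 2)
    (hF : ∀ w ∈ Metric.ball (0 : ℝ × ℝ) (3 * r), F (p + rotE (-a) w)
      = -((Bgad ⟨r, k, b⟩ w.1 w.2 ^ 2 - 1) * (Real.sin a * Real.cos a)))
    (hG : ∀ w ∈ Metric.ball (0 : ℝ × ℝ) (3 * r), G (p + rotE (-a) w)
      = 1 + (Bgad ⟨r, k, b⟩ w.1 w.2 ^ 2 - 1) * Real.cos a ^ 2)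
    (hM : ∀ n ≤ 4, ∀ w ∈ Metric.ball (0 : ℝ × ℝ) (3 * r),
      ‖iteratedFDeriv ℝ n Φ (p + rotE (-a) w)‖ ≤ M)
    (hν : ∃ ν : E3, ‖ν‖ = 1 ∧ inner ℝ ν (fderiv ℝ Φ p (ru a)) = 0 ∧
      inner ℝ ν (fderiv ℝ Φ p (rv a)) = 0 ∧
      1 / C0 ≤ inner ℝ ν (fderiv ℝ (fderiv ℝ Φ) p (ru a) (ru a)) ∧
      |inner ℝ ν (fderiv ℝ (fderiv ℝ Φ) p (ru a) (rv a))| ≤
        1 / 100 * inner ℝ ν (fderiv ℝ (fderiv ℝ Φ) p (ru a) (ru a))) :
    BadMap ⟨r, k, b⟩ C0 (fun w => Φ (p + rotE (-a) w)) := by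
  have hsc := Real.sin_sq_add_cos_sq a
  have h0 : (0 : ℝ × ℝ) ∈ Metric.ball (0 : ℝ × ℝ) (3 * r) :=
    Metric.mem_ball_self (by positivity)
  have hdΦ : ∀ x ∈ U, HasFDerivAt Φ (fderiv ℝ Φ x) x := fun x hx =>
    ((h.smooth.contDiffAt (hU.mem_nhds hx)).differentiableAt (by simp)).hasFDerivAt
  have haff : ∀ w : ℝ × ℝ, HasFDerivAt (fun w => p + rotE (-a) w)
      ((rotE (-a) : (ℝ × ℝ) ≃L[ℝ] (ℝ × ℝ)) : (ℝ × ℝ) →L[ℝ] (ℝ × ℝ)) w := fun w =>
    (rotE (-a)).hasFDerivAt.const_add p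
  have hd : ∀ w ∈ Metric.ball (0 : ℝ × ℝ) (3 * r), ∀ z : ℝ × ℝ,
      fderiv ℝ (fun w => Φ (p + rotE (-a) w)) w z
        = fderiv ℝ Φ (p + rotE (-a) w) (rotE (-a) z) := by
    intro w hw z
    have := ((hdΦ _ (hpU w hw)).comp w (haff w)).fderiv
    have e : (Φ ∘ fun w => p + rotE (-a) w) = fun w => Φ (p + rotE (-a) w) := rfl
    rw [e] at this
    rw [this]
    rfl
  have hexp : ∀ x ∈ U, fderiv ℝ Φ x (ru a) = Real.cos a • pa Φ x + Real.sin a • pb Φ x ∧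
      fderiv ℝ Φ x (rv a) = -Real.sin a • pa Φ x + Real.cos a • pb Φ x := by
    intro x _
    constructor
    · have e : ru a = Real.cos a • ((1, 0) : ℝ × ℝ) + Real.sin a • ((0, 1) : ℝ × ℝ) := by
        rw [ru]; ext <;> simp
      rw [e, map_add, map_smul, map_smul]
      rfl
    · have e : rv a = -Real.sin a • ((1, 0) : ℝ × ℝ) + Real.cos a • ((0, 1) : ℝ × ℝ) := by
        rw [rv]; ext <;> simp
      rw [e, map_add, map_smul, map_smul]
      rfl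
  refine ⟨?_, ?_, ?_, ?_, ?_, ?_⟩
  · refine h.smooth.comp (by fun_prop) fun w hw => hpU w hw
  · intro w hw
    rw [hd w hw, rotE_neg_fst, (hexp _ (hpU w hw)).1]
    simp only [inner_add_left, inner_add_right, real_inner_smul_left, inner_smul_right]
    have e12 := h.e12 _ (hpU w hw)
    rw [real_inner_comm (pa Φ (p + rotE (-a) w)) (pb Φ (p + rotE (-a) w)), e12,
      h.e11 _ (hpU w hw), h.e22 _ (hpU w hw), hE w hw, hF w hw, hG w hw]
    linear_combination (1 : ℝ) * hsc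
  · intro w hw
    rw [hd w hw, hd w hw, rotE_neg_fst, rotE_neg_snd, (hexp _ (hpU w hw)).1,
      (hexp _ (hpU w hw)).2]
    simp only [inner_add_left, inner_add_right, real_inner_smul_left, inner_smul_right]
    have e12 := h.e12 _ (hpU w hw)
    rw [real_inner_comm (pa Φ (p + rotE (-a) w)) (pb Φ (p + rotE (-a) w)), e12,
      h.e11 _ (hpU w hw), h.e22 _ (hpU w hw), hE w hw, hF w hw, hG w hw]
    ring
  · intro w hw
    rw [hd w hw, rotE_neg_snd, (hexp _ (hpU w hw)).2]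
    simp only [inner_add_left, inner_add_right, real_inner_smul_left, inner_smul_right]
    have e12 := h.e12 _ (hpU w hw)
    rw [real_inner_comm (pa Φ (p + rotE (-a) w)) (pb Φ (p + rotE (-a) w)), e12,
      h.e11 _ (hpU w hw), h.e22 _ (hpU w hw), hE w hw, hF w hw, hG w hw]
    show _ = (Bgad ⟨r, k, b⟩ w.1 w.2) ^ 2
    linear_combination (1 + (Bgad ⟨r, k, b⟩ w.1 w.2 ^ 2 - 1) *
      (Real.sin a ^ 2 + Real.cos a ^ 2 + 1)) * hsc
  · intro n hn w hw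
    have e1 := g_comp_bound Φ (rotE (-a)) p n w M (rotL_norm (-a)) (hM n hn w hw)
    refine e1.trans ?_
    have hM0 : 0 ≤ M := (norm_nonneg _).trans (hM n hn w hw)
    have e2 : (2 : ℝ) ^ n ≤ 2 ^ 4 := pow_le_pow_right₀ (by norm_num) hn
    nlinarith
  · obtain ⟨ν, h1, h2, h3, h4, h5⟩ := hν
    have hp0 : p + rotE (-a) 0 = p := by simp
    have hpp : p ∈ U := by
      have := hpU 0 h0
      rwa [hp0] at this
    have e1 : (fun w => fderiv ℝ (fun w => Φ (p + rotE (-a) w)) w (1, 0)) =ᶠ[𝓝 0]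
        fun w => fderiv ℝ Φ (p + rotE (-a) w) (ru a) := by
      filter_upwards [Metric.ball_mem_nhds (0 : ℝ × ℝ) (show 0 < 3 * r by positivity)] with w hw
      rw [hd w hw, rotE_neg_fst]
    have e2 : ∀ z, fderiv ℝ (fun w => fderiv ℝ (fun w => Φ (p + rotE (-a) w)) w (1, 0)) 0 z
        = fderiv ℝ (fderiv ℝ Φ) p (rotE (-a) z) (ru a) := by
      intro z
      rw [e1.fderiv_eq]
      have s1 : ContDiffOn ℝ ∞ (fun x => fderiv ℝ Φ x (ru a)) U :=
        gn_smooth Φ U hU h.smooth _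
      have s2 : HasFDerivAt (fun x => fderiv ℝ Φ x (ru a))
          (fderiv ℝ (fun x => fderiv ℝ Φ x (ru a)) p) (p + rotE (-a) 0) := by
        rw [hp0]
        exact ((s1.contDiffAt (hU.mem_nhds hpp)).differentiableAt (by simp)).hasFDerivAt
      have s3 := (s2.comp (0 : ℝ × ℝ) (haff 0)).fderiv
      have e : ((fun x => fderiv ℝ Φ x (ru a)) ∘ fun w => p + rotE (-a) w)
          = fun w => fderiv ℝ Φ (p + rotE (-a) w) (ru a) := rfl
      rw [e] at s3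
      rw [s3]
      exact gn_snd Φ U hU h.smooth (ru a) (rotE (-a) z) p hpp
    refine ⟨ν, h1, ?_, ?_, ?_, ?_⟩
    · rw [hd 0 h0, rotE_neg_fst, hp0]; exact h2
    · rw [hd 0 h0, rotE_neg_snd, hp0]; exact h3
    · rw [e2, rotE_neg_fst]; exact h4
    · rw [e2, e2, rotE_neg_fst, rotE_neg_snd,
        gn_symm Φ U hU h.smooth (ru a) (rv a) p hpp]
      exact h5

end P229.G
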