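import Vale.Agent.P229.G.Disc
import Vale.Agent.P229.G.Lim

/-! # P229 block G, module GGEO: the configuration of discs and gadget sites. -/

namespace P229.G

open Set Real Filter Topology
open scoped ContDiff

/-- Euclidean length on the plane -/
noncomputable def en (x : ℝ × ℝ) : ℝ := ‖(⟨x.1, x.2⟩ : ℂ)‖

theorem en_sq (x : ℝ × ℝ) : en x ^ 2 = x.1 ^ 2 + x.2 ^ 2 := by
  rw [en, Complex.sq_norm, Complex.normSq_mk]
  ring

theorem en_nonneg (x : ℝ × ℝ) : 0 ≤ en x := norm_nonneg _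

theorem en_tri (x y z : ℝ × ℝ) : en (x - z) ≤ en (x - y) + en (y - z) := by
  unfold en
  have : (⟨(x - z).1, (x - z).2⟩ : ℂ) = ⟨(x - y).1, (x - y).2⟩ + ⟨(y - z).1, (y - z).2⟩ := by
    apply Complex.ext <;> simp
  rw [this]
  exact norm_add_le _ _

theorem en_comm (x y : ℝ × ℝ) : en (x - y) = en (y - x) := by
  unfold en
  have : (⟨(x - y).1, (x - y).2⟩ : ℂ) = -⟨(y - x).1, (y - x).2⟩ := by
    apply Complex.ext <;> simp
  rw [this, norm_neg]

theorem en_continuous : Continuous en := by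
  have : en = fun x : ℝ × ℝ => Real.sqrt (x.1 ^ 2 + x.2 ^ 2) := by
    funext x
    rw [← en_sq, Real.sqrt_sq (en_nonneg x)]
  rw [this]
  fun_prop

theorem norm_le_en (x : ℝ × ℝ) : ‖x‖ ≤ en x := by
  have h := en_sq x
  have h0 := en_nonneg x
  rw [Prod.norm_def, Real.norm_eq_abs, Real.norm_eq_abs]
  refine max_le ?_ ?_
  · exact abs_le_of_sq_le_sq' (by nlinarith [sq_nonneg x.2]) h0 |> abs_le.mpr
  · exact abs_le_of_sq_le_sq' (by nlinarith [sq_nonneg x.1]) h0 |> abs_le.mpr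

theorem en_rot (a : ℝ) (x : ℝ × ℝ) : en (rotE a x) = en x := by
  have h := Real.sin_sq_add_cos_sq a
  have e1 : en (rotE a x) ^ 2 = en x ^ 2 := by
    rw [en_sq, en_sq, rotE_apply]
    show (Real.cos a * x.1 + Real.sin a * x.2) ^ 2 + (-Real.sin a * x.1 + Real.cos a * x.2) ^ 2 = _
    linear_combination (x.1 ^ 2 + x.2 ^ 2) * h
  exact (sq_eq_sq₀ (en_nonneg _) (en_nonneg _)).mp e1

theorem en_lt_of_ball (w : ℝ × ℝ) (r : ℝ) (h : w ∈ Metric.ball (0 : ℝ × ℝ) (3 * r)) :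
    en w < 5 * r := by
  rw [mem_ball_zero_iff, Prod.norm_def, max_lt_iff, Real.norm_eq_abs, Real.norm_eq_abs] at h
  have h1 := abs_lt.mp h.1
  have h2 := abs_lt.mp h.2
  have h3 := en_sq w
  have hr : 0 < r := by linarith [h1.1, h1.2]
  have e1 : w.1 ^ 2 < (3 * r) ^ 2 := sq_lt_sq' h1.1 h1.2
  have e2 : w.2 ^ 2 < (3 * r) ^ 2 := sq_lt_sq' h2.1 h2.2
  exact lt_of_pow_lt_pow_left₀ 2 (by positivity) (by nlinarith)

/-- centres of the discs -/
noncomputable def cen (n : ℕ) : ℝ × ℝ := ((1 / 2) ^ n, 0)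

/-- radii of the discs -/
noncomputable def sc (n : ℕ) : ℝ := (1 / 8) ^ (n + 1)

theorem sc_pos (n : ℕ) : 0 < sc n := by unfold sc; positivity

theorem cen_dist (n m : ℕ) : en (cen n - cen m) = |(1 / 2 : ℝ) ^ n - (1 / 2) ^ m| := by
  have e : en (cen n - cen m) ^ 2 = |(1 / 2 : ℝ) ^ n - (1 / 2) ^ m| ^ 2 := by
    rw [en_sq, sq_abs]
    simp [cen]
  exact (sq_eq_sq₀ (en_nonneg _) (abs_nonneg _)).mp e

theorem geo_sep_lt (n m : ℕ) (h : n < m) : 2 * sc n + 2 * sc m < |(1 / 2 : ℝ) ^ n - (1 / 2) ^ m| := by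
  have h1 : (1 / 2 : ℝ) ^ m ≤ (1 / 2) ^ (n + 1) :=
    pow_le_pow_of_le_one (by norm_num) (by norm_num) h
  have h2 : sc m ≤ sc (n + 1) := by
    unfold sc
    exact pow_le_pow_of_le_one (by norm_num) (by norm_num) (by omega)
  have h3 : (1 / 8 : ℝ) ^ n ≤ (1 / 2) ^ n := pow_le_pow_left₀ (by norm_num) (by norm_num) n
  have h4 : (0 : ℝ) < (1 / 8) ^ n := by positivity
  have h5 : (1 / 2 : ℝ) ^ (n + 1) = (1 / 2) ^ n / 2 := by rw [pow_succ]; ring
  have h6 : sc n = (1 / 8) ^ n / 8 := by unfold sc; rw [pow_succ]; ring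
  have h7 : sc (n + 1) = (1 / 8) ^ n / 64 := by unfold sc; rw [pow_succ, pow_succ]; ring
  have h8 := le_abs_self ((1 / 2 : ℝ) ^ n - (1 / 2) ^ m)
  rw [h5] at h1
  linarith

/-- different structures are disjoint -/
theorem geo_sep (n m : ℕ) (x : ℝ × ℝ) (h1 : en (x - cen n) < 2 * sc n)
    (h2 : en (x - cen m) < 2 * sc m) : n = m := by
  by_contra hne
  have h3 := en_tri (cen n) x (cen m)
  rw [en_comm (cen n) x, cen_dist] at h3
  rcases lt_or_gt_of_ne hne with h | h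
  · have := geo_sep_lt n m h
    linarith
  · have := geo_sep_lt m n h
    rw [abs_sub_comm] at this
    linarith

/-- index of the structure -/
def iN (i : ℕ) : ℕ := (Nat.unpair i).1
/-- index of the boundary point -/
def iM (i : ℕ) : ℕ := (Nat.unpair (Nat.unpair i).2).1
/-- index of the orientation -/
def iO (i : ℕ) : ℕ := (Nat.unpair (Nat.unpair (Nat.unpair i).2).2).1

/-- the index of the `l`-th site of type `(n, m, o)` -/
def ix (n m o l : ℕ) : ℕ := Nat.pair n (Nat.pair m (Nat.pair o l))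

theorem iN_ix (n m o l : ℕ) : iN (ix n m o l) = n := by simp [iN, ix]
theorem iM_ix (n m o l : ℕ) : iM (ix n m o l) = m := by simp [iM, ix]
theorem iO_ix (n m o l : ℕ) : iO (ix n m o l) = o := by simp [iO, ix]
theorem le_ix (n m o l : ℕ) : l ≤ ix n m o l :=
  (Nat.right_le_pair o l).trans ((Nat.right_le_pair m _).trans (Nat.right_le_pair n _))

/-- a dense sequence -/
noncomputable def den : ℕ → ℝ := TopologicalSpace.denseSeq ℝ

/-- the gadget sites -/
noncomputable def site (i : ℕ) : ℝ × ℝ :=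
  gam (cen (iN i)) (sc (iN i) * (1 + (1 / 2) ^ (i + 1))) (den (iM i))

theorem gam_en (c : ℝ × ℝ) (s θ : ℝ) (hs : 0 ≤ s) : en (gam c s θ - c) = s := by
  have h := Real.sin_sq_add_cos_sq θ
  have e : en (gam c s θ - c) ^ 2 = s ^ 2 := by
    rw [en_sq]
    show (c.1 + s * Real.cos θ - c.1) ^ 2 + (c.2 + s * Real.sin θ - c.2) ^ 2 = s ^ 2
    linear_combination s ^ 2 * h
  exact (sq_eq_sq₀ (en_nonneg _) hs).mp e

/-- radial position of the points of a patch -/
theorem patch_radial (i : ℕ) (r : ℝ) (x : ℝ × ℝ) (hr : 5 * r ≤ sc (iN i) * (1 / 2) ^ (i + 4))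
    (hx : en (x - site i) < 5 * r) :
    sc (iN i) * (1 + (1 / 2) ^ (i + 1)) - sc (iN i) * (1 / 2) ^ (i + 4) < en (x - cen (iN i)) ∧
    en (x - cen (iN i)) < sc (iN i) * (1 + (1 / 2) ^ (i + 1)) + sc (iN i) * (1 / 2) ^ (i + 4) := by
  have hs := sc_pos (iN i)
  have h1 : en (site i - cen (iN i)) = sc (iN i) * (1 + (1 / 2) ^ (i + 1)) :=
    gam_en _ _ _ (by positivity)
  have h2 := en_tri x (site i) (cen (iN i))
  have h3 := en_tri (site i) x (cen (iN i))
  rw [en_comm (site i) x] at h3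
  constructor <;> linarith

theorem patch_annulus (i : ℕ) (r : ℝ) (x : ℝ × ℝ) (hr : 5 * r ≤ sc (iN i) * (1 / 2) ^ (i + 4))
    (hx : en (x - site i) < 5 * r) :
    sc (iN i) < en (x - cen (iN i)) ∧ en (x - cen (iN i)) < 2 * sc (iN i) := by
  obtain ⟨h1, h2⟩ := patch_radial i r x hr hx
  have hs := sc_pos (iN i)
  have e1 : (1 / 2 : ℝ) ^ (i + 1) = (1 / 2) ^ i / 2 := by rw [pow_succ]; ring
  have e2 : (1 / 2 : ℝ) ^ (i + 4) = (1 / 2) ^ i / 16 := by rw [pow_add]; ring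
  have e3 : (1 / 2 : ℝ) ^ i ≤ 1 := pow_le_one₀ (by norm_num) (by norm_num)
  have e4 : (0 : ℝ) < (1 / 2) ^ i := by positivity
  rw [e1, e2] at h1 h2
  constructor <;> nlinarith [mul_pos hs e4, mul_le_mul_of_nonneg_left e3 hs.le]

theorem patch_disjoint_lt (i j : ℕ) (hij : i < j) (hN : iN i = iN j) (r r' : ℝ) (x : ℝ × ℝ)
    (hr : 5 * r ≤ sc (iN i) * (1 / 2) ^ (i + 4)) (hr' : 5 * r' ≤ sc (iN j) * (1 / 2) ^ (j + 4))
    (hx : en (x - site i) < 5 * r) (hx' : en (x - site j) < 5 * r') : False := by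
  obtain ⟨h1, _⟩ := patch_radial i r x hr hx
  obtain ⟨_, h2⟩ := patch_radial j r' x hr' hx'
  rw [← hN] at h2
  have hs := sc_pos (iN i)
  have e1 : (1 / 2 : ℝ) ^ (j + 1) ≤ (1 / 2) ^ (i + 2) :=
    pow_le_pow_of_le_one (by norm_num) (by norm_num) (by omega)
  have e2 : (1 / 2 : ℝ) ^ (j + 4) ≤ (1 / 2) ^ (i + 4) :=
    pow_le_pow_of_le_one (by norm_num) (by norm_num) (by omega)
  have e3 : (1 / 2 : ℝ) ^ (i + 1) = (1 / 2) ^ i / 2 := by rw [pow_succ]; ring
  have e4 : (1 / 2 : ℝ) ^ (i + 2) = (1 / 2) ^ i / 4 := by rw [pow_add]; ring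
  have e5 : (1 / 2 : ℝ) ^ (i + 4) = (1 / 2) ^ i / 16 := by rw [pow_add]; ring
  have e6 : (0 : ℝ) < (1 / 2) ^ i := by positivity
  rw [e4] at e1
  rw [e5] at e2 h1
  rw [e3] at h1
  have f1 := mul_le_mul_of_nonneg_left e1 hs.le
  have f2 := mul_le_mul_of_nonneg_left e2 hs.le
  nlinarith [mul_pos hs e6]

theorem patch_disjoint (i j : ℕ) (r r' : ℝ) (x : ℝ × ℝ)
    (hr : 5 * r ≤ sc (iN i) * (1 / 2) ^ (i + 4)) (hr' : 5 * r' ≤ sc (iN j) * (1 / 2) ^ (j + 4))
    (hx : en (x - site i) < 5 * r) (hx' : en (x - site j) < 5 * r') : i = j := by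
  have hN : iN i = iN j := geo_sep _ _ x (patch_annulus i r x hr hx).2
    (patch_annulus j r' x hr' hx').2
  rcases lt_trichotomy i j with h | h | h
  · exact (patch_disjoint_lt i j h hN r r' x hr hr' hx hx').elim
  · exact h
  · exact (patch_disjoint_lt j i h hN.symm r' r x hr' hr hx' hx).elim

/-- sites of a fixed type converge to the boundary point -/
theorem site_tendsto (n m o : ℕ) :
    Tendsto (fun l => site (ix n m o l)) atTop (𝓝 (gam (cen n) (sc n) (den m))) := by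
  have h1 : Tendsto (fun l => (1 / 2 : ℝ) ^ (ix n m o l + 1)) atTop (𝓝 0) := by
    have h2 : Tendsto (fun l => ix n m o l + 1) atTop atTop :=
      tendsto_atTop_mono (fun l => (le_ix n m o l).trans (Nat.le_succ _)) tendsto_id
    exact (tendsto_pow_atTop_nhds_zero_of_lt_one (by norm_num) (by norm_num)).comp h2
  have h3 : Tendsto (fun l => sc n * (1 + (1 / 2 : ℝ) ^ (ix n m o l + 1))) atTop (𝓝 (sc n)) := by
    have := (h1.const_add 1).const_mul (sc n)
    simpa using this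
  have h4 : (fun l => site (ix n m o l))
      = fun l => gam (cen n) (sc n * (1 + (1 / 2 : ℝ) ^ (ix n m o l + 1))) (den m) := by
    funext l
    unfold site
    rw [iN_ix, iM_ix]
  rw [h4]
  have hc : Continuous fun s : ℝ => gam (cen n) s (den m) := by
    unfold gam
    fun_prop
  exact (hc.tendsto (sc n)).comp h3

/-- the closed disc structures shrink to `0` -/
theorem exists_structure (U : Set (ℝ × ℝ)) (hU : IsOpen U) (h0 : (0 : ℝ × ℝ) ∈ U) :
    ∃ n, ∀ x : ℝ × ℝ, en (x - cen n) ≤ 2 * sc n → x ∈ U := by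
  obtain ⟨ε, hε, hb⟩ := Metric.isOpen_iff.mp hU 0 h0
  obtain ⟨n, hn⟩ := exists_pow_lt_of_lt_one (show 0 < ε / 2 by positivity)
    (show (1 / 2 : ℝ) < 1 by norm_num)
  refine ⟨n, fun x hx => hb ?_⟩
  rw [mem_ball_zero_iff]
  have h1 := norm_le_en x
  have h2 := en_tri x (cen n) 0
  rw [sub_zero, sub_zero] at h2
  have h3 : en (cen n) = (1 / 2) ^ n := by
    have e : en (cen n) ^ 2 = ((1 / 2 : ℝ) ^ n) ^ 2 := by
      rw [en_sq]; simp [cen]
    exact (sq_eq_sq₀ (en_nonneg _) (by positivity)).mp e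
  have h4 : sc n ≤ (1 / 2) ^ n / 8 := by
    unfold sc
    rw [pow_succ]
    have : (1 / 8 : ℝ) ^ n ≤ (1 / 2) ^ n := pow_le_pow_left₀ (by norm_num) (by norm_num) n
    linarith
  linarith

theorem structure_compact (n : ℕ) : IsCompact {x : ℝ × ℝ | en (x - cen n) ≤ 2 * sc n} := by
  apply Metric.isCompact_of_isClosed_isBounded
  · exact isClosed_le (en_continuous.comp (continuous_id.sub continuous_const)) continuous_const
  · rw [isBounded_iff_forall_norm_le]
    refine ⟨‖cen n‖ + 2 * sc n, fun x hx => ?_⟩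
    have h1 := norm_le_en (x - cen n)
    have h2 : ‖x‖ ≤ ‖cen n‖ + ‖x - cen n‖ := by
      have := norm_add_le (cen n) (x - cen n)
      simpa using this
    have h3 : en (x - cen n) ≤ 2 * sc n := hx
    linarith

end P229.G
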