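import Vale.Agent.P229.G.Met

/-! # P229 block G: global assembly, `BlockG : GadgetLemma → FinalStatement`. -/

namespace P229.G

open Set Real Filter Topology
open scoped ContDiff

theorem exists_rad (hGL : GadgetLemma) : ∃ r : ℕ → ℝ, Rad r ∧
    ∀ i, ∀ Φ : ℝ × ℝ → E3, ¬ BadMap (par r i) ((i : ℝ) + 1) Φ := by
  have h : ∀ i : ℕ, ∃ ρ : ℝ, 0 < ρ ∧ ρ < 1 ∧ 5 * ρ ≤ sc (iN i) * (1 / 2) ^ (i + 4) ∧
      (∀ k ≤ i, ∀ x : ℝ × ℝ, ‖iteratedFDeriv ℝ k (fun x : ℝ × ℝ =>
        Bgad ⟨ρ, i + 10, 100 * (i + 1) * (i + 11)⟩ x.1 x.2 ^ 2 - 1) x‖ ≤ (1 / 4) ^ (i + 1)) ∧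
      ∀ Φ : ℝ × ℝ → E3, ¬ BadMap ⟨ρ, i + 10, 100 * (i + 1) * (i + 11)⟩ ((i : ℝ) + 1) Φ := by
    intro i
    obtain ⟨r0, hr0, H0⟩ := hGL ((i : ℝ) + 1) (i + 10) (100 * (i + 1) * (i + 11))
      (by linarith [(Nat.cast_nonneg i : (0 : ℝ) ≤ i)]) (by omega) (by nlinarith)
    obtain ⟨r1, hr1, hr1', H1⟩ := gad_small i (i + 10) (100 * (i + 1) * (i + 11)) le_rfl le_rfl
      ((1 / 4) ^ (i + 1)) (by positivity)
    have hs := sc_pos (iN i)
    have ht : 0 < sc (iN i) * (1 / 2) ^ (i + 4) / 5 := by positivity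
    set m := min (min r0 r1) (sc (iN i) * (1 / 2) ^ (i + 4) / 5) with hm
    have hm0 : 0 < m := lt_min (lt_min hr0 hr1) ht
    have a1 : m ≤ r0 := (min_le_left _ _).trans (min_le_left _ _)
    have a2 : m ≤ r1 := (min_le_left _ _).trans (min_le_right _ _)
    have a3 : m ≤ sc (iN i) * (1 / 2) ^ (i + 4) / 5 := min_le_right _ _
    refine ⟨m / 2, by linarith, by linarith, by linarith, ?_, ?_⟩
    · intro k hk x
      exact H1 (m / 2) (by linarith) (by linarith) k hk x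
    · intro Φ
      exact H0 (m / 2) (by linarith) (by linarith) Φ
  choose r h1 h2 h3 h4 h5 using h
  exact ⟨r, ⟨h1, h2, h3, h4⟩, h5⟩

theorem den_dense : DenseRange den := TopologicalSpace.denseRange_denseSeq ℝ

theorem bound_four (Φ : ℝ × ℝ → E3) (U : Set (ℝ × ℝ)) (hU : IsOpen U) (h : ContDiffOn ℝ ∞ Φ U)
    (K : Set (ℝ × ℝ)) (hK : IsCompact K) (hKU : K ⊆ U) (j : ℕ) :
    ∃ C : ℝ, 0 ≤ C ∧ ∀ i ≤ j, ∀ x ∈ K, ‖iteratedFDeriv ℝ i Φ x‖ ≤ C := by
  have hc : ∀ i : ℕ, ContinuousOn (iteratedFDeriv ℝ i Φ) U := by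
    intro i
    have h1 := h.continuousOn_iteratedFDerivWithin (m := i) (by exact_mod_cast le_top)
      hU.uniqueDiffOn
    refine h1.congr fun x hx => ?_
    exact (iteratedFDerivWithin_of_isOpen i hU hx).symm
  induction j with
  | zero =>
    obtain ⟨C, hC⟩ := hK.exists_bound_of_continuousOn ((hc 0).mono hKU)
    refine ⟨max C 0, le_max_right _ _, fun i hi x hx => ?_⟩
    obtain rfl : i = 0 := by omega
    exact (hC x hx).trans (le_max_left _ _)
  | succ j ih =>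
    obtain ⟨C, hC0, hC⟩ := ih
    obtain ⟨C', hC'⟩ := hK.exists_bound_of_continuousOn ((hc (j + 1)).mono hKU)
    refine ⟨max C C', le_max_of_le_left hC0, fun i hi x hx => ?_⟩
    rcases Nat.lt_or_ge i (j + 1) with h | h
    · exact (hC i (by omega) x hx).trans (le_max_left _ _)
    · obtain rfl : i = j + 1 := by omega
      exact (hC' x hx).trans (le_max_right _ _)

/-- values of the metric on a patch -/
theorem metric_patch (δ r : ℕ → ℝ) (hr : Rad r) (i : ℕ) (x : ℝ × ℝ)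
    (h : en (x - site i) < 5 * r i) :
    mE r x = 1 + cE i * pat r i x ∧ mF r x = cF i * pat r i x ∧
      mG δ r x = 1 + cG i * pat r i x := by
  unfold mE mF mG
  rw [psum_patch _ _ hr i x h, psum_patch _ _ hr i x h, psum_patch _ _ hr i x h,
    bsum_zero δ x fun m => fb_zero_of_patch r hr i m x h]
  refine ⟨rfl, rfl, by ring⟩

theorem metric_circle (δ r : ℕ → ℝ) (hδ : ∀ n, ∀ k ≤ n, ∀ x,
    ‖iteratedFDeriv ℝ k (fun x => δ n * fb n x) x‖ ≤ (1 / 2 : ℝ) ^ n) (hr : Rad r) (n : ℕ)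
    (θ : ℝ) :
    (fderiv ℝ (mE r) (gam (cen n) (sc n) θ) = 0 ∧ mE r (gam (cen n) (sc n) θ) = 1) ∧
    (fderiv ℝ (mF r) (gam (cen n) (sc n) θ) = 0 ∧ mF r (gam (cen n) (sc n) θ) = 0) ∧
    (fderiv ℝ (mG δ r) (gam (cen n) (sc n) θ) = 0 ∧ mG δ r (gam (cen n) (sc n) θ) = 1) := by
  obtain ⟨e1, e2⟩ := psum_circle cE r cE_abs hr n θ
  obtain ⟨f1, f2⟩ := psum_circle cF r cF_abs hr n θ
  obtain ⟨g1, g2⟩ := psum_circle cG r cG_abs hr n θ
  obtain ⟨b1, b2⟩ := bsum_circle δ hδ n θ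
  have dE : DifferentiableAt ℝ (psum cE r) (gam (cen n) (sc n) θ) :=
    ((psum_smooth cE cE_abs r hr).differentiable (by simp)) _
  have dG : DifferentiableAt ℝ (psum cG r) (gam (cen n) (sc n) θ) :=
    ((psum_smooth cG cG_abs r hr).differentiable (by simp)) _
  have dB : DifferentiableAt ℝ (bsum δ) (gam (cen n) (sc n) θ) :=
    ((bsum_smooth δ hδ).differentiable (by simp)) _
  refine ⟨⟨?_, ?_⟩, ⟨f1, f2⟩, ⟨?_, ?_⟩⟩
  · have : mE r = fun x => 1 + psum cE r x := rfl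
    rw [this, fderiv_const_add, e1]
  · unfold mE
    rw [e2, add_zero]
  · have : mG δ r = fun x => (1 + bsum δ x) + psum cG r x := rfl
    rw [this]
    have h2 := fderiv_fun_add (𝕜 := ℝ) (dB.const_add 1) dG
    rw [h2, fderiv_const_add, b1, g1, add_zero]
  · unfold mG
    rw [b2, g2]
    norm_num

/-- the second derivative vanishes at the marked boundary points -/
theorem second_zero (r δ : ℕ → ℝ) (hδ : ∀ n, ∀ k ≤ n, ∀ x,
    ‖iteratedFDeriv ℝ k (fun x => δ n * fb n x) x‖ ≤ (1 / 2 : ℝ) ^ n) (hr : Rad r)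
    (hGL : ∀ i, ∀ Φ : ℝ × ℝ → E3, ¬ BadMap (par r i) ((i : ℝ) + 1) Φ)
    (Φ : ℝ × ℝ → E3) (U : Set (ℝ × ℝ)) (hU : IsOpen U) (h : IsoOn Φ (mE r) (mF r) (mG δ r) U)
    (n : ℕ) (hn : ∀ x : ℝ × ℝ, en (x - cen n) ≤ 2 * sc n → x ∈ U) (m : ℕ) :
    fderiv ℝ (fderiv ℝ Φ) (gam (cen n) (sc n) (den m)) = 0 := by
  by_contra hne
  obtain ⟨M, hM0, hM⟩ := bound_four Φ U hU h.smooth {x : ℝ × ℝ | en (x - cen n) ≤ 2 * sc n}
    (structure_compact n) hn 4
  have hs := sc_pos n
  set q := gam (cen n) (sc n) (den m) with hq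
  have hqU : q ∈ U := by
    apply hn
    rw [hq, gam_en _ _ _ hs.le]
    linarith
  obtain ⟨⟨hE1, hE2⟩, ⟨hF1, hF2⟩, hG1, hG2⟩ := metric_circle δ r hδ hr n (den m)
  rw [← hq] at hE1 hE2 hF1 hF2 hG1 hG2
  have hnor := gn_normal Φ _ _ _ U hU h q hqU hE1 hF1 hG1
  obtain ⟨ν, o, hν1, hνa, hνb, hX, hY⟩ := gl_orient den den_dense (pa Φ q) (pb Φ q)
    (fderiv ℝ (fderiv ℝ Φ) q) (gn_symm Φ U hU h.smooth (1, 0) (0, 1) q hqU) hnor hne
  have hsc := Real.sin_sq_add_cos_sq (den o)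
  have hexp : ∀ x, fderiv ℝ Φ x (ru (den o)) = Real.cos (den o) • pa Φ x
      + Real.sin (den o) • pb Φ x ∧ fderiv ℝ Φ x (rv (den o))
        = -Real.sin (den o) • pa Φ x + Real.cos (den o) • pb Φ x := by
    intro x
    constructor
    · have e : ru (den o) = Real.cos (den o) • ((1, 0) : ℝ × ℝ)
          + Real.sin (den o) • ((0, 1) : ℝ × ℝ) := by
        rw [ru]; ext <;> simp
      rw [e, map_add, map_smul, map_smul]
      rfl
    · have e : rv (den o) = -Real.sin (den o) • ((1, 0) : ℝ × ℝ)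
          + Real.cos (den o) • ((0, 1) : ℝ × ℝ) := by
        rw [rv]; ext <;> simp
      rw [e, map_add, map_smul, map_smul]
      rfl
  have hinner : ∀ x ∈ U, inner ℝ (fderiv ℝ Φ x (ru (den o))) (fderiv ℝ Φ x (ru (den o)))
        = Real.cos (den o) ^ 2 * mE r x + 2 * Real.cos (den o) * Real.sin (den o) * mF r x
          + Real.sin (den o) ^ 2 * mG δ r x ∧
      inner ℝ (fderiv ℝ Φ x (rv (den o))) (fderiv ℝ Φ x (rv (den o)))
        = Real.sin (den o) ^ 2 * mE r x - 2 * Real.cos (den o) * Real.sin (den o) * mF r x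
          + Real.cos (den o) ^ 2 * mG δ r x ∧
      inner ℝ (fderiv ℝ Φ x (ru (den o))) (fderiv ℝ Φ x (rv (den o)))
        = Real.cos (den o) * Real.sin (den o) * (mG δ r x - mE r x)
          + (Real.cos (den o) ^ 2 - Real.sin (den o) ^ 2) * mF r x := by
    intro x hx
    have h12 := h.e12 x hx
    have h11 := h.e11 x hx
    have h22 := h.e22 x hx
    have h21 : inner ℝ (pb Φ x) (pa Φ x) = mF r x := by rw [real_inner_comm]; exact h12
    rw [(hexp x).1, (hexp x).2]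
    simp only [inner_add_left, inner_add_right, real_inner_smul_left, inner_smul_right,
      h11, h12, h22, h21]
    refine ⟨by ring, by ring, by ring⟩
  have hcd1 : ContDiffOn ℝ ∞ (fderiv ℝ Φ) U := h.smooth.fderiv_of_isOpen hU (by simp)
  have hcd2 : ContDiffOn ℝ ∞ (fderiv ℝ (fderiv ℝ Φ)) U := hcd1.fderiv_of_isOpen hU (by simp)
  have c1 : ContinuousAt (fderiv ℝ Φ) q := (hcd1.continuousOn).continuousAt (hU.mem_nhds hqU)
  have c2 : ContinuousAt (fderiv ℝ (fderiv ℝ Φ)) q :=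
    (hcd2.continuousOn).continuousAt (hU.mem_nhds hqU)
  obtain ⟨κ, hκ, hev⟩ := gl_near (fun x => fderiv ℝ Φ x (ru (den o)))
    (fun x => fderiv ℝ Φ x (rv (den o)))
    (fun x => fderiv ℝ (fderiv ℝ Φ) x (ru (den o)) (ru (den o)))
    (fun x => fderiv ℝ (fderiv ℝ Φ) x (ru (den o)) (rv (den o))) q
    (c1.clm_apply continuousAt_const) (c1.clm_apply continuousAt_const)
    ((c2.clm_apply continuousAt_const).clm_apply continuousAt_const)
    ((c2.clm_apply continuousAt_const).clm_apply continuousAt_const) ν hν1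
    (by
      show inner ℝ (fderiv ℝ Φ q (ru (den o))) (fderiv ℝ Φ q (ru (den o))) = 1
      rw [(hinner q hqU).1, hE2, hF2, hG2]
      linear_combination hsc)
    (by
      show inner ℝ (fderiv ℝ Φ q (rv (den o))) (fderiv ℝ Φ q (rv (den o))) = 1
      rw [(hinner q hqU).2.1, hE2, hF2, hG2]
      linear_combination hsc)
    (by
      show inner ℝ (fderiv ℝ Φ q (ru (den o))) ν = 0
      rw [(hexp q).1]
      simp only [inner_add_left, real_inner_smul_left, hνa, hνb]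
      simp)
    (by
      show inner ℝ (fderiv ℝ Φ q (rv (den o))) ν = 0
      rw [(hexp q).2]
      simp only [inner_add_left, real_inner_smul_left, hνa, hνb]
      simp)
    hX hY
  -- choose a site
  have t1 := (site_tendsto n m o).eventually hev
  have t2 : ∀ᶠ l : ℕ in atTop, 16 * M + 1 / κ ≤ (l : ℝ) :=
    tendsto_natCast_atTop_atTop.eventually_ge_atTop _
  obtain ⟨l, hl1, hl2⟩ := (t1.and t2).exists
  set i := ix n m o l with hi
  have hiN : iN i = n := iN_ix n m o l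
  have hang : ang i = den o := by
    unfold ang
    rw [hi, iO_ix]
  have hli : (l : ℝ) ≤ i := by
    exact_mod_cast le_ix n m o l
  have hκ1 : 0 < 1 / κ := by positivity
  have hri := hr.pos i
  have hsite : en (site i - site i) < 5 * r i := by
    rw [sub_self]
    have e0 : en 0 = 0 := by
      have := en_sq 0
      simpa using this
    rw [e0]
    positivity
  have hann : ∀ x : ℝ × ℝ, en (x - site i) < 5 * r i → en (x - cen n) ≤ 2 * sc n := by
    intro x hx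
    have := (patch_annulus i (r i) x (hr.sm i) hx).2
    rw [hiN] at this
    exact this.le
  have hw : ∀ w ∈ Metric.ball (0 : ℝ × ℝ) (3 * r i),
      en (site i + rotE (-(ang i)) w - site i) < 5 * r i := by
    intro w hw
    rw [add_sub_cancel_left, en_rot]
    exact en_lt_of_ball w (r i) hw
  have hpat : ∀ w : ℝ × ℝ, pat r i (site i + rotE (-(ang i)) w)
      = Bgad (par r i) w.1 w.2 ^ 2 - 1 := by
    intro w
    have e : rotE (ang i) (site i + rotE (-(ang i)) w - site i) = w := by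
      rw [add_sub_cancel_left]
      have := rotL_neg_rotL (-(ang i)) w
      rwa [neg_neg] at this
    unfold pat
    rw [e]
  refine hGL i (fun w => Φ (site i + rotE (-(ang i)) w)) ?_
  refine gl_bad Φ _ _ _ U hU h (r i) (i + 10) (100 * (i + 1) * (i + 11)) (ang i) ((i : ℝ) + 1) M
    (site i) hri (by linarith) (fun w hw' => hn _ (hann _ (hw w hw'))) ?_ ?_ ?_
    (fun k hk w hw' => hM k hk _ (hann _ (hw w hw'))) ?_
  · intro w hw'
    rw [(metric_patch δ r hr i _ (hw w hw')).1, hpat]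
    show 1 + cE i * (Bgad ⟨r i, i + 10, 100 * (i + 1) * (i + 11)⟩ w.1 w.2 ^ 2 - 1) = _
    unfold cE
    ring
  · intro w hw'
    rw [(metric_patch δ r hr i _ (hw w hw')).2.1, hpat]
    show cF i * (Bgad ⟨r i, i + 10, 100 * (i + 1) * (i + 11)⟩ w.1 w.2 ^ 2 - 1) = _
    unfold cF
    ring
  · intro w hw'
    rw [(metric_patch δ r hr i _ (hw w hw')).2.2, hpat]
    show 1 + cG i * (Bgad ⟨r i, i + 10, 100 * (i + 1) * (i + 11)⟩ w.1 w.2 ^ 2 - 1) = _
    unfold cG
    ring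
  · have hsU : site i ∈ U := hn _ (hann _ hsite)
    obtain ⟨m1, m2, m3⟩ := metric_patch δ r hr i (site i) hsite
    have hAB : inner ℝ (fderiv ℝ Φ (site i) (ru (den o))) (fderiv ℝ Φ (site i) (rv (den o)))
        = 0 := by
      rw [(hinner _ hsU).2.2, m1, m2, m3]
      unfold cE cF cG
      rw [hang]
      ring
    obtain ⟨ν', k1, k2, k3, k4, k5⟩ := hl1 hAB
    rw [hang]
    refine ⟨ν', k1, k2, k3, ?_, k5⟩
    refine le_trans ?_ k4
    rw [div_le_iff₀ (by linarith)]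
    have h6 : 1 / κ ≤ (i : ℝ) + 1 := by linarith
    calc (1 : ℝ) = κ * (1 / κ) := by field_simp
      _ ≤ κ * ((i : ℝ) + 1) := mul_le_mul_of_nonneg_left h6 hκ.le

theorem blockG_aux : BlockG := by
  intro hGL
  obtain ⟨r, hr, hGL'⟩ := exists_rad hGL
  obtain ⟨δ, hδ0, hδ⟩ := exists_del
  refine ⟨mE r, mF r, mG δ r, contDiff_const.add (psum_smooth cE cE_abs r hr),
    psum_smooth cF cF_abs r hr,
    (contDiff_const.add (bsum_smooth δ hδ)).add (psum_smooth cG cG_abs r hr),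
    metric_pos δ r hδ0 hr, ?_⟩
  rintro U hU h0 ⟨Φ, hΦ, hiso⟩
  have h : IsoOn Φ (mE r) (mF r) (mG δ r) U :=
    ⟨hΦ, fun q hq => (hiso q hq).1, fun q hq => (hiso q hq).2.1, fun q hq => (hiso q hq).2.2⟩
  obtain ⟨n, hn⟩ := exists_structure U hU h0
  have hs := sc_pos n
  have hall : ∀ θ, fderiv ℝ (fderiv ℝ Φ) (gam (cen n) (sc n) θ) = 0 := by
    have hcd1 : ContDiffOn ℝ ∞ (fderiv ℝ Φ) U := hΦ.fderiv_of_isOpen hU (by simp)
    have hcd2 : ContDiffOn ℝ ∞ (fderiv ℝ (fderiv ℝ Φ)) U := hcd1.fderiv_of_isOpen hU (by simp)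
    have hc : Continuous fun θ : ℝ => fderiv ℝ (fderiv ℝ Φ) (gam (cen n) (sc n) θ) := by
      refine hcd2.continuousOn.comp_continuous ?_ fun θ => hn _ ?_
      · unfold gam
        fun_prop
      · rw [gam_en _ _ _ hs.le]
        linarith
    intro θ
    refine den_dense.induction_on (p := fun θ =>
      fderiv ℝ (fderiv ℝ Φ) (gam (cen n) (sc n) θ) = 0) θ (isClosed_eq hc continuous_const) ?_
    intro m
    exact second_zero r δ hδ hr hGL' Φ U hU h n hn m
  have hen : ∀ x : ℝ × ℝ, (x.1 - (cen n).1) ^ 2 + (x.2 - (cen n).2) ^ 2 = en (x - cen n) ^ 2 := by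
    intro x
    rw [en_sq]
    rfl
  obtain ⟨⟨_, hE2⟩, _, _, hG2⟩ := metric_circle δ r hδ hr n 0
  have hdisc : ∀ x : ℝ × ℝ, (x.1 - (cen n).1) ^ 2 + (x.2 - (cen n).2) ^ 2 < sc n ^ 2 →
      en (x - cen n) < sc n := by
    intro x hx
    rw [hen] at hx
    exact lt_of_pow_lt_pow_left₀ 2 hs.le hx
  have key := gd_disc Φ (mE r) (mF r) (mG δ r) U hU h (cen n) (sc n) hs
    (fun x hx => hn x (by
      rw [hen] at hx
      have := le_of_sq_le_sq hx hs.le
      linarith)) hall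
    (fun x hx => by
      unfold mE
      rw [psum_zero _ _ _ fun i => pat_zero_of_disc r hr n i x (hdisc x hx), add_zero]) hE2 hG2
  have hcc : en (cen n - cen n) < sc n := by
    rw [sub_self]
    have e0 : en 0 = 0 := by
      have := en_sq 0
      simpa using this
    rw [e0]
    exact hs
  unfold mG at key
  rw [bsum_cen, psum_zero _ _ _ fun i => pat_zero_of_disc r hr n i _ hcc] at key
  have := hδ0 n
  linarith

end P229.G

/-- Block G. -/
theorem P229.blockG : P229.BlockG := P229.G.blockG_aux
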