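import Vale.Agent.P229.Interface

/-! # P229 block G, module GSMALL: the gadget is smooth, `C^j`-small, and trivial off `|X| < 2r`,
`|Y| < 21r/10`.
`Bgad - 1 = r^2 beta(X/r, Y/r)`,
`beta = -(eps/2) A1 + epsc A2 + eta epsc lam^2 A3(x/lam, y/lam)` with the fixed smooth compactly
supported functions `A1 = cut(x) chi(y) x^2`, `A2 = cut(x) kk(y) (x^2/2 - x^4/12)`,
`A3 = kk(x) kk(y)` on `ℝ × ℝ`.  For fixed `A` smooth with compact support and `0 < ρ`:
`‖D^i (A (ρ⁻¹ • x))‖ ≤ C_i ρ^(-i)` (`ContinuousLinearMap.iteratedFDeriv_comp_right` with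
`g = ρ⁻¹ • id`).  So `‖D^i (Bgad-1)‖ ≤ C r^2` for `i ≤ j`, `r ≤ 1`
(exponents `20k - j ≥ 0`, `b - j (10k+3) ≥ 0`), and `Bgad^2 - 1 = u^2 + 2u` with `u = Bgad - 1`
(`norm_iteratedFDeriv_mul_le`). -/

namespace P229

open Set Real
open scoped ContDiff

private theorem gsm_st : ContDiff ℝ ∞ Real.smoothTransition := Real.smoothTransition.contDiff

private theorem gsm_kk : ContDiff ℝ ∞ kk := by
  unfold kk
  exact (gsm_st.comp (by fun_prop)).mul (gsm_st.comp (by fun_prop))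

private theorem gsm_chi1 : ContDiff ℝ ∞ chi1 := by
  unfold chi1
  exact (gsm_st.comp (by fun_prop)).mul (gsm_st.comp (by fun_prop))

private theorem gsm_chi : ContDiff ℝ ∞ chi := by
  unfold chi
  exact gsm_chi1.add (gsm_chi1.comp (by fun_prop))

private theorem gsm_cut : ContDiff ℝ ∞ cut := by
  unfold cut
  exact (gsm_st.comp (by fun_prop)).mul (gsm_st.comp (by fun_prop))

private theorem gsm_kk_zero {y : ℝ} (h : 1 ≤ |y|) : kk y = 0 := by
  unfold kk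
  rcases le_abs.1 h with h | h
  · rw [Real.smoothTransition.zero_of_nonpos (by linarith : 2 * (1 - y) ≤ 0), zero_mul]
  · rw [Real.smoothTransition.zero_of_nonpos (by linarith : 2 * (1 + y) ≤ 0), mul_zero]

private theorem gsm_chi1_zero {y : ℝ} (h : 21 / 10 ≤ |y|) : chi1 y = 0 := by
  unfold chi1
  rcases le_abs.1 h with h | h
  · rw [Real.smoothTransition.zero_of_nonpos (by linarith : 30 * (21 / 10 - y) ≤ 0), mul_zero]
  · rw [Real.smoothTransition.zero_of_nonpos (by linarith : 30 * (y - 2) ≤ 0), zero_mul]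

private theorem gsm_chi_zero {y : ℝ} (h : 21 / 10 ≤ |y|) : chi y = 0 := by
  unfold chi
  rw [gsm_chi1_zero h, gsm_chi1_zero (by rwa [abs_neg]), add_zero]

private theorem gsm_cut_zero {x : ℝ} (h : 2 ≤ |x|) : cut x = 0 := by
  unfold cut
  rcases le_abs.1 h with h | h
  · rw [Real.smoothTransition.zero_of_nonpos (by linarith : 2 * (2 - x) ≤ 0), zero_mul]
  · rw [Real.smoothTransition.zero_of_nonpos (by linarith : 2 * (2 + x) ≤ 0), mul_zero]

/-- the three fixed functions -/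
private noncomputable def gsmA1 (q : ℝ × ℝ) : ℝ := cut q.1 * chi q.2 * q.1 ^ 2
private noncomputable def gsmA2 (q : ℝ × ℝ) : ℝ := cut q.1 * kk q.2 * (q.1 ^ 2 / 2 - q.1 ^ 4 / 12)
private noncomputable def gsmA3 (q : ℝ × ℝ) : ℝ := kk q.1 * kk q.2

private theorem gsm_A1 : ContDiff ℝ ∞ gsmA1 := by
  unfold gsmA1
  exact ((gsm_cut.comp contDiff_fst).mul (gsm_chi.comp contDiff_snd)).mul (contDiff_fst.pow 2)

private theorem gsm_A2 : ContDiff ℝ ∞ gsmA2 := by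
  unfold gsmA2
  exact ((gsm_cut.comp contDiff_fst).mul (gsm_kk.comp contDiff_snd)).mul
    (((contDiff_fst.pow 2).div_const 2).sub ((contDiff_fst.pow 4).div_const 12))

private theorem gsm_A3 : ContDiff ℝ ∞ gsmA3 := by
  unfold gsmA3
  exact (gsm_kk.comp contDiff_fst).mul (gsm_kk.comp contDiff_snd)

private theorem gsm_cpt (A : ℝ × ℝ → ℝ) (h : ∀ q : ℝ × ℝ, 3 ≤ |q.1| ∨ 3 ≤ |q.2| → A q = 0) :
    HasCompactSupport A := by
  refine HasCompactSupport.intro (isCompact_Icc.prod isCompact_Icc :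
    IsCompact (Icc (-3 : ℝ) 3 ×ˢ Icc (-3 : ℝ) 3)) fun q hq => h q ?_
  by_contra hcon
  push Not at hcon
  obtain ⟨h1, h2⟩ := hcon
  rw [abs_lt] at h1 h2
  exact hq ⟨⟨h1.1.le, h1.2.le⟩, ⟨h2.1.le, h2.2.le⟩⟩

private theorem gsm_A1c : HasCompactSupport gsmA1 := by
  refine gsm_cpt _ fun q h => ?_
  unfold gsmA1
  rcases h with h | h
  · rw [gsm_cut_zero (by linarith)]; ring
  · rw [gsm_chi_zero (by linarith)]; ring

private theorem gsm_A2c : HasCompactSupport gsmA2 := by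
  refine gsm_cpt _ fun q h => ?_
  unfold gsmA2
  rcases h with h | h
  · rw [gsm_cut_zero (by linarith)]; ring
  · rw [gsm_kk_zero (by linarith)]; ring

private theorem gsm_A3c : HasCompactSupport gsmA3 := by
  refine gsm_cpt _ fun q h => ?_
  unfold gsmA3
  rcases h with h | h
  · rw [gsm_kk_zero (y := q.1) (by linarith)]; ring
  · rw [gsm_kk_zero (y := q.2) (by linarith)]; ring

/-- all derivatives of order at most `j` of a smooth compactly supported function are bounded -/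
private theorem gsm_bdd (A : ℝ × ℝ → ℝ) (hA : ContDiff ℝ ∞ A) (hc : HasCompactSupport A) (j : ℕ) :
    ∃ C : ℝ, 0 ≤ C ∧ ∀ i ≤ j, ∀ x, ‖iteratedFDeriv ℝ i A x‖ ≤ C := by
  induction j with
  | zero =>
    obtain ⟨C, hC⟩ := (hA.continuous_iteratedFDeriv (m := 0)
      (by exact_mod_cast le_top)).bounded_above_of_compact_support (hc.iteratedFDeriv 0)
    exact ⟨C, (norm_nonneg _).trans (hC 0), fun i hi x => by
      obtain rfl : i = 0 := by omega
      exact hC x⟩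
  | succ j ih =>
    obtain ⟨C, hC0, hC⟩ := ih
    obtain ⟨C', hC'⟩ := (hA.continuous_iteratedFDeriv (m := j + 1)
      (by exact_mod_cast le_top)).bounded_above_of_compact_support (hc.iteratedFDeriv (j + 1))
    refine ⟨max C C', le_max_of_le_left hC0, fun i hi x => ?_⟩
    rcases Nat.lt_or_ge i (j + 1) with h | h
    · exact (hC i (by omega) x).trans (le_max_left _ _)
    · obtain rfl : i = j + 1 := by omega
      exact (hC' x).trans (le_max_right _ _)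

/-- scaling -/
private theorem gsm_scale (A : ℝ × ℝ → ℝ) (hA : ContDiff ℝ ∞ A) (t : ℝ) (ht : 0 ≤ t) (i : ℕ)
    (x : ℝ × ℝ) : ‖iteratedFDeriv ℝ i (fun x => A (t • x)) x‖
      ≤ ‖iteratedFDeriv ℝ i A (t • x)‖ * t ^ i := by
  have h := ContinuousLinearMap.iteratedFDeriv_comp_right
    (t • ContinuousLinearMap.id ℝ (ℝ × ℝ)) (f := A) (n := ∞) hA x (i := i)
    (by exact_mod_cast le_top)
  have h2 : (A ∘ (t • ContinuousLinearMap.id ℝ (ℝ × ℝ))) = fun x => A (t • x) := by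
    ext y
    simp
  rw [h2] at h
  rw [h]
  refine (ContinuousMultilinearMap.norm_compContinuousLinearMap_le _ _).trans ?_
  have h3 : ‖t • ContinuousLinearMap.id ℝ (ℝ × ℝ)‖ ≤ t := by
    rw [norm_smul, Real.norm_of_nonneg ht]
    calc t * ‖ContinuousLinearMap.id ℝ (ℝ × ℝ)‖ ≤ t * 1 :=
          mul_le_mul_of_nonneg_left ContinuousLinearMap.norm_id_le ht
      _ = t := mul_one t
  have h4 : (t • ContinuousLinearMap.id ℝ (ℝ × ℝ)) x = t • x := by simp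
  rw [h4, Finset.prod_const, Finset.card_univ, Fintype.card_fin]
  exact mul_le_mul_of_nonneg_left (pow_le_pow_left₀ (norm_nonneg _) h3 i) (norm_nonneg _)

theorem gad_smooth (P : Par) : ContDiff ℝ ∞ (fun x : ℝ × ℝ => Bgad P x.1 x.2) := by
  unfold Bgad Bu beta b0 bb
  have hx : ContDiff ℝ ∞ (fun x : ℝ × ℝ => x.1 / P.r) := contDiff_fst.div_const _
  have hy : ContDiff ℝ ∞ (fun x : ℝ × ℝ => x.2 / P.r) := contDiff_snd.div_const _
  have h1 := gsm_cut.comp hx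
  have h2 := gsm_chi.comp hy
  have h3 := gsm_kk.comp hy
  have h4 := gsm_kk.comp (hx.div_const P.lam)
  have h5 := gsm_kk.comp (hy.div_const P.lam)
  simp only [Function.comp_def] at h1 h2 h3 h4 h5
  exact contDiff_const.add (contDiff_const.mul ((h1.mul
    ((((contDiff_const.mul h2).mul (hx.pow 2)).div_const 2).neg.add ((contDiff_const.mul h3).mul
      (((hx.pow 2).div_const 2).sub ((hx.pow 4).div_const 12))))).add
      ((contDiff_const.mul h4).mul h5)))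

theorem gad_one (r : ℝ) (k b : ℕ) (h0 : 0 < r) (h1 : r < 1) (X Y : ℝ)
    (h : 2 * r ≤ |X| ∨ 21 / 10 * r ≤ |Y|) : Bgad ⟨r, k, b⟩ X Y = 1 := by
  have hlam : (0 : ℝ) < r ^ (10 * k + 2) := pow_pos h0 _
  have hlam1 : r ^ (10 * k + 2) ≤ 1 := pow_le_one₀ h0.le h1.le
  unfold Bgad Bu beta b0 bb Par.lam
  simp only
  have key : ∀ Z c : ℝ, c * r ≤ |Z| → c ≤ |Z / r| := by
    intro Z c hZ
    rw [abs_div, abs_of_pos h0, le_div_iff₀ h0]
    exact hZ
  have key2 : ∀ w : ℝ, 1 ≤ |w| → 1 ≤ |w / r ^ (10 * k + 2)| := by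
    intro w hw
    rw [abs_div, abs_of_pos hlam, le_div_iff₀ hlam, one_mul]
    exact hlam1.trans hw
  rcases h with h | h
  · have hx := key X 2 h
    rw [gsm_cut_zero hx, gsm_kk_zero (key2 _ (by linarith))]
    ring
  · have hy := key Y (21 / 10) h
    rw [gsm_chi_zero hy, gsm_kk_zero (by linarith : 1 ≤ |Y / r|),
      gsm_kk_zero (key2 (Y / r) (by linarith))]
    ring

/-- the deviation `u = Bgad - 1` as a combination of rescaled fixed functions -/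
private theorem gsm_eq (r : ℝ) (k b : ℕ) (x : ℝ × ℝ) :
    Bgad ⟨r, k, b⟩ x.1 x.2 - 1
      = (-(r ^ (20 * k + 2) / 2)) * gsmA1 (r⁻¹ • x)
        + (r ^ (20 * k + 4)) * gsmA2 (r⁻¹ • x)
        + (r ^ (b + 40 * k + 8)) * gsmA3 ((r ^ (10 * k + 3))⁻¹ • x) := by
  unfold Bgad Bu beta b0 bb gsmA1 gsmA2 gsmA3 Par.lam Par.eps Par.epsc Par.eta
  simp only [Prod.smul_fst, Prod.smul_snd, smul_eq_mul]
  have e1 : x.1 / r = r⁻¹ * x.1 := by rw [div_eq_inv_mul]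
  have e2 : x.2 / r = r⁻¹ * x.2 := by rw [div_eq_inv_mul]
  have e3 : ∀ y : ℝ, r⁻¹ * y / r ^ (10 * k + 2) = (r ^ (10 * k + 3))⁻¹ * y := by
    intro y
    rw [pow_succ r (10 * k + 2), mul_inv, div_eq_mul_inv]
    ring
  rw [e1, e2, e3, e3]
  have p1 : r ^ (20 * k + 2) = r ^ (20 * k) * r ^ 2 := by ring
  have p2 : r ^ (20 * k + 4) = r ^ (20 * k + 2) * r ^ 2 := by ring
  have p3 : r ^ (b + 40 * k + 8) = r ^ b * r ^ (20 * k + 2) * (r ^ (10 * k + 2)) ^ 2 * r ^ 2 := by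
    ring
  rw [p3, p2]
  ring

private theorem gsm_term (A : ℝ × ℝ → ℝ) (hA : ContDiff ℝ ∞ A) (C : ℝ) (i : ℕ)
    (hC : ∀ x, ‖iteratedFDeriv ℝ i A x‖ ≤ C) (c t R : ℝ) (ht : 0 ≤ t) (hR : ‖c‖ * t ^ i ≤ R)
    (x : ℝ × ℝ) : ‖iteratedFDeriv ℝ i (fun x : ℝ × ℝ => c • A (t • x)) x‖ ≤ C * R := by
  have h0 : 0 ≤ C := (norm_nonneg _).trans (hC x)
  have c1 : ContDiff ℝ ∞ (fun x : ℝ × ℝ => A (t • x)) := hA.comp (contDiff_const_smul _)
  have hin : ((i : ℕ∞) : ℕ∞ω) ≤ ∞ := by exact_mod_cast le_top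
  rw [iteratedFDeriv_const_smul_apply' (c1.of_le hin).contDiffAt, norm_smul]
  have hs := gsm_scale A hA t ht i x
  calc ‖c‖ * ‖iteratedFDeriv ℝ i (fun x : ℝ × ℝ => A (t • x)) x‖
      ≤ ‖c‖ * (C * t ^ i) := mul_le_mul_of_nonneg_left
        (hs.trans (mul_le_mul_of_nonneg_right (hC _) (by positivity))) (norm_nonneg _)
    _ = C * (‖c‖ * t ^ i) := by ring
    _ ≤ C * R := mul_le_mul_of_nonneg_left hR h0

private theorem gsm_pow (r : ℝ) (h0 : 0 < r) (h1 : r < 1) (n m i : ℕ) (h : m * i + 2 ≤ n) :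
    r ^ n * (r ^ m)⁻¹ ^ i ≤ r ^ 2 := by
  have : r ^ n * (r ^ m)⁻¹ ^ i = r ^ (n - m * i) := by
    rw [inv_pow, ← pow_mul, ← div_eq_mul_inv, pow_sub₀ r h0.ne' (by omega)]
    rfl
  rw [this]
  exact pow_le_pow_of_le_one h0.le h1.le (by omega)

private theorem gsm_add3 (f g h : ℝ × ℝ → ℝ) (i : ℕ) (hf : ContDiff ℝ i f) (hg : ContDiff ℝ i g)
    (hh : ContDiff ℝ i h) (x : ℝ × ℝ) :
    ‖iteratedFDeriv ℝ i (f + g + h) x‖ ≤ ‖iteratedFDeriv ℝ i f x‖ + ‖iteratedFDeriv ℝ i g x‖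
      + ‖iteratedFDeriv ℝ i h x‖ := by
  have hfg : ContDiff ℝ i (f + g) := hf.add hg
  rw [iteratedFDeriv_add_apply hfg.contDiffAt hh.contDiffAt,
    iteratedFDeriv_add_apply hf.contDiffAt hg.contDiffAt]
  exact norm_add₃_le

/-- bound of all derivatives of `u` -/
private theorem gsm_u (j k b : ℕ) (hk : j + 10 ≤ k) (hb : 100 * (j + 1) * (k + 1) ≤ b) :
    ∃ C : ℝ, 0 ≤ C ∧ ∀ r : ℝ, 0 < r → r < 1 → ∀ i ≤ j, ∀ x : ℝ × ℝ,
      ‖iteratedFDeriv ℝ i (fun x : ℝ × ℝ => Bgad ⟨r, k, b⟩ x.1 x.2 - 1) x‖ ≤ C * r ^ 2 := by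
  obtain ⟨C1, h10, h1⟩ := gsm_bdd gsmA1 gsm_A1 gsm_A1c j
  obtain ⟨C2, h20, h2⟩ := gsm_bdd gsmA2 gsm_A2 gsm_A2c j
  obtain ⟨C3, h30, h3⟩ := gsm_bdd gsmA3 gsm_A3 gsm_A3c j
  refine ⟨C1 + C2 + C3, by positivity, fun r hr0 hr1 i hi x => ?_⟩
  have hf : (fun x : ℝ × ℝ => Bgad ⟨r, k, b⟩ x.1 x.2 - 1)
      = ((fun x => (-(r ^ (20 * k + 2) / 2)) • gsmA1 (r⁻¹ • x))
        + (fun x => (r ^ (20 * k + 4)) • gsmA2 (r⁻¹ • x)))
        + (fun x => (r ^ (b + 40 * k + 8)) • gsmA3 ((r ^ (10 * k + 3))⁻¹ • x)) := by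
    funext y
    simpa only [smul_eq_mul, Pi.add_apply] using gsm_eq r k b y
  have hin : ((i : ℕ∞) : ℕ∞ω) ≤ ∞ := by exact_mod_cast le_top
  have c1 : ContDiff ℝ i (fun x : ℝ × ℝ => (-(r ^ (20 * k + 2) / 2)) • gsmA1 (r⁻¹ • x)) :=
    ((gsm_A1.comp (contDiff_const_smul _)).of_le hin).const_smul _
  have c2 : ContDiff ℝ i (fun x : ℝ × ℝ => (r ^ (20 * k + 4)) • gsmA2 (r⁻¹ • x)) :=
    ((gsm_A2.comp (contDiff_const_smul _)).of_le hin).const_smul _
  have c3 : ContDiff ℝ i (fun x : ℝ × ℝ =>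
      (r ^ (b + 40 * k + 8)) • gsmA3 ((r ^ (10 * k + 3))⁻¹ • x)) :=
    ((gsm_A3.comp (contDiff_const_smul _)).of_le hin).const_smul _
  have n1 := gsm_term gsmA1 gsm_A1 C1 i (h1 i hi) (-(r ^ (20 * k + 2) / 2)) r⁻¹ (r ^ 2)
    (by positivity) (by
      have hn : ‖-(r ^ (20 * k + 2) / 2)‖ ≤ r ^ (20 * k + 2) := by
        rw [norm_neg, Real.norm_of_nonneg (by positivity)]
        linarith [show (0 : ℝ) < r ^ (20 * k + 2) by positivity]
      have := gsm_pow r hr0 hr1 (20 * k + 2) 1 i (by omega)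
      rw [pow_one] at this
      exact (mul_le_mul_of_nonneg_right hn (by positivity)).trans this) x
  have n2 := gsm_term gsmA2 gsm_A2 C2 i (h2 i hi) (r ^ (20 * k + 4)) r⁻¹ (r ^ 2)
    (by positivity) (by
      have := gsm_pow r hr0 hr1 (20 * k + 4) 1 i (by omega)
      rw [pow_one] at this
      rwa [Real.norm_of_nonneg (by positivity)]) x
  have n3 := gsm_term gsmA3 gsm_A3 C3 i (h3 i hi) (r ^ (b + 40 * k + 8)) (r ^ (10 * k + 3))⁻¹
    (r ^ 2) (by positivity) (by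
      rw [Real.norm_of_nonneg (by positivity)]
      refine gsm_pow r hr0 hr1 (b + 40 * k + 8) (10 * k + 3) i ?_
      have : (10 * k + 3) * i ≤ 100 * (j + 1) * (k + 1) := by
        calc (10 * k + 3) * i ≤ (100 * (k + 1)) * (j + 1) :=
              Nat.mul_le_mul (by omega) (by omega)
          _ = 100 * (j + 1) * (k + 1) := by ring
      omega) x
  rw [hf]
  refine (gsm_add3 _ _ _ i c1 c2 c3 x).trans ?_
  linarith

/-- derivatives of `B^2 - 1` from those of `u = B - 1` -/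
private theorem gsm_sq (u : ℝ × ℝ → ℝ) (hu : ContDiff ℝ ∞ u) (j i : ℕ) (hi : i ≤ j) (D : ℝ)
    (hD : 0 ≤ D) (h : ∀ l ≤ j, ∀ x, ‖iteratedFDeriv ℝ l u x‖ ≤ D) (x : ℝ × ℝ) :
    ‖iteratedFDeriv ℝ i (fun x => u x * u x + (2 : ℝ) • u x) x‖ ≤ 2 ^ j * D ^ 2 + 2 * D := by
  have hin : ((i : ℕ∞) : ℕ∞ω) ≤ ∞ := by exact_mod_cast le_top
  have hui : ContDiff ℝ i u := hu.of_le hin
  have e : (fun x => u x * u x + (2 : ℝ) • u x)
      = (fun x => u x * u x) + fun x => (2 : ℝ) • u x := rfl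
  rw [e, iteratedFDeriv_add_apply (hui.mul hui).contDiffAt (hui.const_smul 2).contDiffAt,
    iteratedFDeriv_const_smul_apply' hui.contDiffAt]
  refine (norm_add_le _ _).trans (add_le_add ?_ ?_)
  · refine (norm_iteratedFDeriv_mul_le hui hui x le_rfl).trans ?_
    calc ∑ l ∈ Finset.range (i + 1), (i.choose l : ℝ) * ‖iteratedFDeriv ℝ l u x‖ *
          ‖iteratedFDeriv ℝ (i - l) u x‖
        ≤ ∑ l ∈ Finset.range (i + 1), (i.choose l : ℝ) * D ^ 2 := by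
          refine Finset.sum_le_sum fun l hl => ?_
          have hl' : l ≤ i := Nat.lt_succ_iff.1 (Finset.mem_range.1 hl)
          rw [mul_assoc, sq]
          exact mul_le_mul_of_nonneg_left (mul_le_mul (h l (hl'.trans hi) x)
            (h (i - l) ((Nat.sub_le _ _).trans hi) x) (norm_nonneg _) hD) (by positivity)
      _ = 2 ^ i * D ^ 2 := by
          rw [← Finset.sum_mul]
          congr 1
          exact_mod_cast Nat.sum_range_choose i
      _ ≤ 2 ^ j * D ^ 2 := mul_le_mul_of_nonneg_right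
          (pow_le_pow_right₀ (by norm_num) hi) (by positivity)
  · rw [norm_smul, Real.norm_of_nonneg (by norm_num : (0 : ℝ) ≤ 2)]
    exact mul_le_mul_of_nonneg_left (h i hi x) (by norm_num)

theorem gad_small (j k b : ℕ) (hk : j + 10 ≤ k) (hb : 100 * (j + 1) * (k + 1) ≤ b) (ε : ℝ)
    (hε : 0 < ε) : ∃ r1 : ℝ, 0 < r1 ∧ r1 ≤ 1 ∧ ∀ r : ℝ, 0 < r → r < r1 → ∀ i ≤ j, ∀ x : ℝ × ℝ,
      ‖iteratedFDeriv ℝ i (fun x : ℝ × ℝ => Bgad ⟨r, k, b⟩ x.1 x.2 ^ 2 - 1) x‖ ≤ ε := by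
  obtain ⟨C, hC0, hC⟩ := gsm_u j k b hk hb
  have hpos : 0 < 2 ^ j * C ^ 2 + 2 * C + 1 := by positivity
  refine ⟨min 1 (ε / (2 ^ j * C ^ 2 + 2 * C + 1)), lt_min one_pos (div_pos hε hpos),
    min_le_left _ _, fun r hr0 hr i hi x => ?_⟩
  have hr1 : r < 1 := hr.trans_le (min_le_left _ _)
  have hr2 : r < ε / (2 ^ j * C ^ 2 + 2 * C + 1) := hr.trans_le (min_le_right _ _)
  have hu : ContDiff ℝ ∞ (fun x : ℝ × ℝ => Bgad ⟨r, k, b⟩ x.1 x.2 - 1) :=
    (gad_smooth ⟨r, k, b⟩).sub contDiff_const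
  have h := gsm_sq _ hu j i hi (C * r ^ 2) (by positivity) (fun l hl x => hC r hr0 hr1 l hl x) x
  have e : (fun x : ℝ × ℝ => Bgad ⟨r, k, b⟩ x.1 x.2 ^ 2 - 1)
      = fun x => (Bgad ⟨r, k, b⟩ x.1 x.2 - 1) * (Bgad ⟨r, k, b⟩ x.1 x.2 - 1)
        + (2 : ℝ) • (Bgad ⟨r, k, b⟩ x.1 x.2 - 1) := by
    funext y
    rw [smul_eq_mul]
    ring
  rw [e]
  refine h.trans ?_
  have hrr : r ^ 2 ≤ r := by nlinarith
  have hr4 : (r ^ 2) ^ 2 ≤ r := by nlinarith [sq_nonneg r, pow_pos hr0 2]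
  have h5 : (2 ^ j * C ^ 2 + 2 * C + 1) * r < ε := by
    rwa [lt_div_iff₀ hpos, mul_comm] at hr2
  calc 2 ^ j * (C * r ^ 2) ^ 2 + 2 * (C * r ^ 2)
      = 2 ^ j * C ^ 2 * (r ^ 2) ^ 2 + 2 * C * r ^ 2 := by ring
    _ ≤ 2 ^ j * C ^ 2 * r + 2 * C * r :=
        add_le_add (mul_le_mul_of_nonneg_left hr4 (by positivity))
          (mul_le_mul_of_nonneg_left hrr (by positivity))
    _ ≤ (2 ^ j * C ^ 2 + 2 * C + 1) * r := by nlinarith
    _ ≤ ε := h5.le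

end P229
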