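import Vale.Agent.P229.G.Geo
import Vale.Agent.P229.G.Small

/-! # P229 block G, module GMET: the metric. -/

namespace P229.G

open Set Real Filter Topology
open scoped ContDiff

/-- the bump of the `n`-th disc -/
noncomputable def fb (n : ℕ) (x : ℝ × ℝ) : ℝ :=
  Real.smoothTransition (1 - ((x.1 - (cen n).1) ^ 2 + (x.2 - (cen n).2) ^ 2) / sc n ^ 2)

theorem fb_smooth (n : ℕ) : ContDiff ℝ ∞ (fb n) := by
  unfold fb
  exact Real.smoothTransition.contDiff.comp (by fun_prop)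

theorem fb_nonneg (n : ℕ) (x : ℝ × ℝ) : 0 ≤ fb n x := Real.smoothTransition.nonneg _

theorem fb_zero (n : ℕ) (x : ℝ × ℝ) (h : sc n ≤ en (x - cen n)) : fb n x = 0 := by
  unfold fb
  apply Real.smoothTransition.zero_of_nonpos
  have h1 := en_sq (x - cen n)
  have h2 := sc_pos n
  have h3 : (x.1 - (cen n).1) ^ 2 + (x.2 - (cen n).2) ^ 2 = en (x - cen n) ^ 2 := by
    rw [h1]; rfl
  rw [h3]
  have h4 : sc n ^ 2 ≤ en (x - cen n) ^ 2 := pow_le_pow_left₀ h2.le h 2
  have h5 : 1 ≤ en (x - cen n) ^ 2 / sc n ^ 2 := by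
    rw [le_div_iff₀ (by positivity)]
    linarith
  linarith

theorem fb_cen (n : ℕ) : fb n (cen n) = 1 := by
  unfold fb
  apply Real.smoothTransition.one_of_one_le
  simp

theorem fb_compact (n : ℕ) : HasCompactSupport (fb n) := by
  refine HasCompactSupport.intro (structure_compact n) fun x hx => ?_
  apply fb_zero
  have h1 : ¬ en (x - cen n) ≤ 2 * sc n := hx
  have h2 := sc_pos n
  linarith

theorem gm_bdd (A : ℝ × ℝ → ℝ) (hA : ContDiff ℝ ∞ A) (hc : HasCompactSupport A) (j : ℕ) :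
    ∃ C : ℝ, 0 ≤ C ∧ ∀ i ≤ j, ∀ x, ‖iteratedFDeriv ℝ i A x‖ ≤ C := by
  induction j with
  | zero =>
    obtain ⟨C, hC⟩ := (hA.continuous_iteratedFDeriv (m := 0)
      (by exact_mod_cast le_top)).bounded_above_of_compact_support (hc.iteratedFDeriv 0)
    exact ⟨C, (norm_nonneg _).trans (hC 0), fun i hi x => by
      obtain rfl : i = 0 := by omega
      exact hC x⟩
  | succ j ih =>
    obtain ⟨C, hC0, hC⟩ := ih
    obtain ⟨C', hC'⟩ := (hA.continuous_iteratedFDeriv (m := j + 1)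
      (by exact_mod_cast le_top)).bounded_above_of_compact_support (hc.iteratedFDeriv (j + 1))
    refine ⟨max C C', le_max_of_le_left hC0, fun i hi x => ?_⟩
    rcases Nat.lt_or_ge i (j + 1) with h | h
    · exact (hC i (by omega) x).trans (le_max_left _ _)
    · obtain rfl : i = j + 1 := by omega
      exact (hC' x).trans (le_max_right _ _)

theorem gm_const (c : ℝ) (f : ℝ × ℝ → ℝ) (hf : ContDiff ℝ ∞ f) (k : ℕ) (x : ℝ × ℝ) :
    ‖iteratedFDeriv ℝ k (fun x => c * f x) x‖ = |c| * ‖iteratedFDeriv ℝ k f x‖ := by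
  have hin : ((k : ℕ∞) : ℕ∞ω) ≤ ∞ := by exact_mod_cast le_top
  have h := iteratedFDeriv_const_smul_apply' (𝕜 := ℝ) (a := c) (hf.of_le hin).contDiffAt (x := x)
  have e : (fun x => c * f x) = fun x => c • f x := rfl
  rw [e, h, norm_smul, Real.norm_eq_abs]

/-- admissible strengths of the bumps -/
theorem exists_del : ∃ δ : ℕ → ℝ, (∀ n, 0 < δ n) ∧ ∀ n, ∀ k ≤ n, ∀ x,
    ‖iteratedFDeriv ℝ k (fun x => δ n * fb n x) x‖ ≤ (1 / 2 : ℝ) ^ n := by
  have h : ∀ n : ℕ, ∃ d : ℝ, 0 < d ∧ ∀ k ≤ n, ∀ x,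
      ‖iteratedFDeriv ℝ k (fun x => d * fb n x) x‖ ≤ (1 / 2 : ℝ) ^ n := by
    intro n
    obtain ⟨C, hC0, hC⟩ := gm_bdd (fb n) (fb_smooth n) (fb_compact n) n
    refine ⟨(1 / 2) ^ n / (C + 1), by positivity, fun k hk x => ?_⟩
    rw [gm_const _ _ (fb_smooth n), abs_of_pos (by positivity), div_mul_eq_mul_div,
      div_le_iff₀ (by positivity)]
    have := hC k hk x
    have h2 : (0 : ℝ) < (1 / 2) ^ n := by positivity
    exact mul_le_mul_of_nonneg_left (by linarith) h2.le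
  choose δ h1 h2 using h
  exact ⟨δ, h1, h2⟩

/-- parameters of the `i`-th gadget -/
def par (r : ℕ → ℝ) (i : ℕ) : Par := ⟨r i, i + 10, 100 * (i + 1) * (i + 11)⟩

/-- orientation of the `i`-th gadget -/
noncomputable def ang (i : ℕ) : ℝ := den (iO i)

/-- admissible radii -/
structure Rad (r : ℕ → ℝ) : Prop where
  pos : ∀ i, 0 < r i
  lt1 : ∀ i, r i < 1
  sm : ∀ i, 5 * r i ≤ sc (iN i) * (1 / 2) ^ (i + 4)
  bd : ∀ i, ∀ k ≤ i, ∀ x : ℝ × ℝ,
    ‖iteratedFDeriv ℝ k (fun x : ℝ × ℝ => Bgad (par r i) x.1 x.2 ^ 2 - 1) x‖ ≤ (1 / 4) ^ (i + 1)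

/-- the `i`-th patch -/
noncomputable def pat (r : ℕ → ℝ) (i : ℕ) (x : ℝ × ℝ) : ℝ :=
  Bgad (par r i) (rotE (ang i) (x - site i)).1 (rotE (ang i) (x - site i)).2 ^ 2 - 1

theorem pat_smooth (r : ℕ → ℝ) (i : ℕ) : ContDiff ℝ ∞ (pat r i) := by
  unfold pat
  have h : ContDiff ℝ ∞ fun x : ℝ × ℝ => rotE (ang i) (x - site i) :=
    (rotE (ang i)).contDiff.comp (contDiff_id.sub contDiff_const)
  exact (((gad_smooth (par r i)).comp h).pow 2).sub contDiff_const

theorem pat_bound (r : ℕ → ℝ) (hr : Rad r) (i k : ℕ) (hk : k ≤ i) (x : ℝ × ℝ) :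
    ‖iteratedFDeriv ℝ k (pat r i) x‖ ≤ (1 / 2 : ℝ) ^ i := by
  have e : pat r i = fun y => (fun x : ℝ × ℝ => Bgad (par r i) x.1 x.2 ^ 2 - 1)
      (-rotE (ang i) (site i) + rotE (ang i) y) := by
    funext y
    have : -rotE (ang i) (site i) + rotE (ang i) y = rotE (ang i) (y - site i) := by
      rw [map_sub]; abel
    rw [this]
    rfl
  rw [e]
  refine (g_comp_bound _ (rotE (ang i)) _ k x ((1 / 4) ^ (i + 1)) (rotL_norm _)
    (hr.bd i k hk _)).trans ?_
  have h1 : (2 : ℝ) ^ k ≤ 2 ^ i := pow_le_pow_right₀ (by norm_num) hk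
  calc ((1 / 4 : ℝ)) ^ (i + 1) * 2 ^ k ≤ (1 / 4) ^ (i + 1) * 2 ^ i := by gcongr
    _ = (1 / 2) ^ i / 4 := by
      rw [pow_succ, mul_right_comm, ← mul_pow]
      norm_num
      ring
    _ ≤ (1 / 2) ^ i := by
      have : (0 : ℝ) < (1 / 2) ^ i := by positivity
      linarith

theorem pat_abs (r : ℕ → ℝ) (hr : Rad r) (i : ℕ) (x : ℝ × ℝ) : |pat r i x| ≤ 1 / 4 := by
  have h := hr.bd i 0 (Nat.zero_le _) (rotE (ang i) (x - site i))
  rw [norm_iteratedFDeriv_zero, Real.norm_eq_abs] at h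
  refine h.trans ?_
  have h1 : (1 / 4 : ℝ) ^ i ≤ 1 := pow_le_one₀ (by norm_num) (by norm_num)
  rw [pow_succ]
  linarith

theorem pat_supp (r : ℕ → ℝ) (hr : Rad r) (i : ℕ) (x : ℝ × ℝ) (h : pat r i x ≠ 0) :
    en (x - site i) < 5 * r i := by
  by_contra hcon
  apply h
  set w := rotE (ang i) (x - site i) with hw
  have h1 : en w = en (x - site i) := en_rot _ _
  have h2 : 2 * r i ≤ |w.1| ∨ 21 / 10 * r i ≤ |w.2| := by
    by_contra h3
    push Not at h3
    have hp := hr.pos i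
    have h4 : w ∈ Metric.ball (0 : ℝ × ℝ) (3 * r i) := by
      rw [mem_ball_zero_iff, Prod.norm_def, max_lt_iff, Real.norm_eq_abs, Real.norm_eq_abs]
      constructor <;> linarith [h3.1, h3.2]
    have h5 := en_lt_of_ball w (r i) h4
    rw [h1] at h5
    exact hcon h5
  have h3 := gad_one (r i) (i + 10) (100 * (i + 1) * (i + 11)) (hr.pos i) (hr.lt1 i) w.1 w.2 h2
  show Bgad (par r i) w.1 w.2 ^ 2 - 1 = 0
  have h4 : Bgad (par r i) w.1 w.2 = 1 := h3
  rw [h4]
  norm_num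

theorem pat_unique (r : ℕ → ℝ) (hr : Rad r) (i j : ℕ) (x : ℝ × ℝ) (hi : en (x - site i) < 5 * r i)
    (hj : j ≠ i) : pat r j x = 0 := by
  by_contra h
  exact hj (patch_disjoint j i (r j) (r i) x (hr.sm j) (hr.sm i) (pat_supp r hr j x h) hi)

theorem fb_zero_of_annulus (n m : ℕ) (x : ℝ × ℝ) (h1 : sc n ≤ en (x - cen n))
    (h2 : en (x - cen n) < 2 * sc n) : fb m x = 0 := by
  by_contra h
  have h3 : en (x - cen m) < sc m := by
    by_contra h4
    exact h (fb_zero m x (not_lt.mp h4))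
  have h5 := sc_pos m
  have h6 := geo_sep n m x h2 (by linarith)
  rw [h6] at h1
  linarith

theorem fb_zero_of_patch (r : ℕ → ℝ) (hr : Rad r) (i m : ℕ) (x : ℝ × ℝ)
    (h : en (x - site i) < 5 * r i) : fb m x = 0 := by
  obtain ⟨h1, h2⟩ := patch_annulus i (r i) x (hr.sm i) h
  exact fb_zero_of_annulus _ m x h1.le h2

theorem pat_zero_of_disc (r : ℕ → ℝ) (hr : Rad r) (n i : ℕ) (x : ℝ × ℝ)
    (h : en (x - cen n) < sc n) : pat r i x = 0 := by
  by_contra h0
  obtain ⟨h1, h2⟩ := patch_annulus i (r i) x (hr.sm i) (pat_supp r hr i x h0)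
  have h3 := sc_pos n
  have h4 := geo_sep _ n x h2 (by linarith)
  rw [h4] at h1
  linarith

theorem fb_zero_of_disc (n m : ℕ) (x : ℝ × ℝ) (h : en (x - cen n) < sc n) (hm : m ≠ n) :
    fb m x = 0 := by
  by_contra h0
  have h3 : en (x - cen m) < sc m := by
    by_contra h4
    exact h0 (fb_zero m x (not_lt.mp h4))
  have h5 := sc_pos m
  have h6 := sc_pos n
  exact hm (geo_sep m n x (by linarith) (by linarith))

/-- weighted sum of the patches -/
noncomputable def psum (c : ℕ → ℝ) (r : ℕ → ℝ) (x : ℝ × ℝ) : ℝ := ∑' i, c i * pat r i x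

/-- the sum of the bumps -/
noncomputable def bsum (δ : ℕ → ℝ) (x : ℝ × ℝ) : ℝ := ∑' n, δ n * fb n x

theorem psum_smooth (c : ℕ → ℝ) (hc : ∀ i, |c i| ≤ 1) (r : ℕ → ℝ) (hr : Rad r) :
    ContDiff ℝ ∞ (psum c r) := by
  unfold psum
  refine g_sum_smooth (fun i x => c i * pat r i x)
    (fun i => contDiff_const.mul (pat_smooth r i)) fun i k hk x => ?_
  rw [gm_const _ _ (pat_smooth r i)]
  have h1 := pat_bound r hr i k hk x
  have h2 := norm_nonneg (iteratedFDeriv ℝ k (pat r i) x)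
  nlinarith [hc i, abs_nonneg (c i)]

theorem bsum_smooth (δ : ℕ → ℝ) (hδ : ∀ n, ∀ k ≤ n, ∀ x,
    ‖iteratedFDeriv ℝ k (fun x => δ n * fb n x) x‖ ≤ (1 / 2 : ℝ) ^ n) :
    ContDiff ℝ ∞ (bsum δ) := by
  unfold bsum
  exact g_sum_smooth (fun n x => δ n * fb n x)
    (fun n => contDiff_const.mul (fb_smooth n)) hδ

theorem psum_patch (c r : ℕ → ℝ) (hr : Rad r) (i : ℕ) (x : ℝ × ℝ)
    (h : en (x - site i) < 5 * r i) : psum c r x = c i * pat r i x := by
  unfold psum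
  refine tsum_eq_single i fun j hj => ?_
  rw [pat_unique r hr i j x h hj, mul_zero]

theorem psum_zero (c r : ℕ → ℝ) (x : ℝ × ℝ) (h : ∀ i, pat r i x = 0) : psum c r x = 0 := by
  unfold psum
  simp [h]

theorem bsum_zero (δ : ℕ → ℝ) (x : ℝ × ℝ) (h : ∀ n, fb n x = 0) : bsum δ x = 0 := by
  unfold bsum
  simp [h]

theorem bsum_cen (δ : ℕ → ℝ) (n : ℕ) : bsum δ (cen n) = δ n := by
  unfold bsum
  rw [tsum_eq_single n]
  · rw [fb_cen, mul_one]
  · intro m hm
    rw [fb_zero_of_disc n m (cen n) _ hm, mul_zero]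
    have : en (cen n - cen n) = 0 := by
      rw [sub_self]
      have := en_sq 0
      simpa using this
    rw [this]
    exact sc_pos n

theorem bsum_nonneg (δ : ℕ → ℝ) (hδ : ∀ n, 0 < δ n) (x : ℝ × ℝ) : 0 ≤ bsum δ x :=
  tsum_nonneg fun n => mul_nonneg (hδ n).le (fb_nonneg n x)

theorem mem_closure_in (n : ℕ) (θ : ℝ) :
    gam (cen n) (sc n) θ ∈ closure {x : ℝ × ℝ | en (x - cen n) < sc n} := by
  have hc : Continuous fun s : ℝ => gam (cen n) s θ := by
    unfold gam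
    fun_prop
  refine mem_closure_of_tendsto (f := fun s => gam (cen n) s θ) (b := 𝓝[<] (sc n))
    ((hc.tendsto (sc n)).mono_left nhdsWithin_le_nhds) ?_
  filter_upwards [Ioo_mem_nhdsLT (sc_pos n)] with s hs
  show en (gam (cen n) s θ - cen n) < sc n
  rw [gam_en _ _ _ hs.1.le]
  exact hs.2

theorem mem_closure_out (n : ℕ) (θ : ℝ) :
    gam (cen n) (sc n) θ ∈ closure {x : ℝ × ℝ | sc n < en (x - cen n) ∧
      en (x - cen n) < 2 * sc n} := by
  have hc : Continuous fun s : ℝ => gam (cen n) s θ := by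
    unfold gam
    fun_prop
  have hs0 := sc_pos n
  refine mem_closure_of_tendsto (f := fun s => gam (cen n) s θ) (b := 𝓝[>] (sc n))
    ((hc.tendsto (sc n)).mono_left nhdsWithin_le_nhds) ?_
  filter_upwards [Ioo_mem_nhdsGT (show sc n < 2 * sc n by linarith)] with s hs
  show sc n < en (gam (cen n) s θ - cen n) ∧ en (gam (cen n) s θ - cen n) < 2 * sc n
  rw [gam_en _ _ _ (by linarith [hs.1])]
  exact hs

theorem psum_circle (c r : ℕ → ℝ) (hc : ∀ i, |c i| ≤ 1) (hr : Rad r) (n : ℕ) (θ : ℝ) :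
    fderiv ℝ (psum c r) (gam (cen n) (sc n) θ) = 0 ∧ psum c r (gam (cen n) (sc n) θ) = 0 := by
  refine g_closure (psum c r) (psum_smooth c hc r hr) _ ?_ 0 ?_ _ (mem_closure_in n θ)
  · exact isOpen_lt (en_continuous.comp (continuous_id.sub continuous_const)) continuous_const
  · intro x hx
    exact psum_zero c r x fun i => pat_zero_of_disc r hr n i x hx

theorem bsum_circle (δ : ℕ → ℝ) (hδ : ∀ n, ∀ k ≤ n, ∀ x,
    ‖iteratedFDeriv ℝ k (fun x => δ n * fb n x) x‖ ≤ (1 / 2 : ℝ) ^ n) (n : ℕ) (θ : ℝ) :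
    fderiv ℝ (bsum δ) (gam (cen n) (sc n) θ) = 0 ∧ bsum δ (gam (cen n) (sc n) θ) = 0 := by
  refine g_closure (bsum δ) (bsum_smooth δ hδ) _ ?_ 0 ?_ _ (mem_closure_out n θ)
  · exact (isOpen_lt continuous_const
      (en_continuous.comp (continuous_id.sub continuous_const))).inter
      (isOpen_lt (en_continuous.comp (continuous_id.sub continuous_const)) continuous_const)
  · intro x hx
    exact bsum_zero δ x fun m => fb_zero_of_annulus n m x hx.1.le hx.2

/-- coefficients -/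
noncomputable def cE (i : ℕ) : ℝ := Real.sin (ang i) ^ 2
/-- coefficients -/
noncomputable def cF (i : ℕ) : ℝ := -(Real.sin (ang i) * Real.cos (ang i))
/-- coefficients -/
noncomputable def cG (i : ℕ) : ℝ := Real.cos (ang i) ^ 2

theorem cE_abs (i : ℕ) : |cE i| ≤ 1 := by
  have h := Real.sin_sq_add_cos_sq (ang i)
  unfold cE
  rw [abs_of_nonneg (sq_nonneg _)]
  nlinarith [sq_nonneg (Real.cos (ang i))]

theorem cG_abs (i : ℕ) : |cG i| ≤ 1 := by
  have h := Real.sin_sq_add_cos_sq (ang i)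
  unfold cG
  rw [abs_of_nonneg (sq_nonneg _)]
  nlinarith [sq_nonneg (Real.sin (ang i))]

theorem cF_abs (i : ℕ) : |cF i| ≤ 1 := by
  have h := Real.sin_sq_add_cos_sq (ang i)
  unfold cF
  rw [abs_neg, abs_le]
  constructor
  · nlinarith [sq_nonneg (Real.sin (ang i) + Real.cos (ang i))]
  · nlinarith [sq_nonneg (Real.sin (ang i) - Real.cos (ang i))]

/-- the metric -/
noncomputable def mE (r : ℕ → ℝ) (x : ℝ × ℝ) : ℝ := 1 + psum cE r x
/-- the metric -/
noncomputable def mF (r : ℕ → ℝ) (x : ℝ × ℝ) : ℝ := psum cF r x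
/-- the metric -/
noncomputable def mG (δ r : ℕ → ℝ) (x : ℝ × ℝ) : ℝ := 1 + bsum δ x + psum cG r x

theorem metric_pos (δ r : ℕ → ℝ) (hδ : ∀ n, 0 < δ n) (hr : Rad r) (x : ℝ × ℝ) :
    0 < mE r x ∧ 0 < mE r x * mG δ r x - mF r x ^ 2 := by
  unfold mE mF mG
  by_cases h : ∀ i, pat r i x = 0
  · rw [psum_zero _ _ _ h, psum_zero _ _ _ h, psum_zero _ _ _ h]
    have := bsum_nonneg δ hδ x
    constructor
    · norm_num
    · nlinarith
  · push Not at h
    obtain ⟨i, hi⟩ := h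
    have hs := pat_supp r hr i x hi
    rw [psum_patch _ _ hr i x hs, psum_patch _ _ hr i x hs, psum_patch _ _ hr i x hs,
      bsum_zero δ x fun m => fb_zero_of_patch r hr i m x hs]
    have h1 := Real.sin_sq_add_cos_sq (ang i)
    have h2 := abs_le.mp (pat_abs r hr i x)
    unfold cE cF cG
    set p := pat r i x
    set s := Real.sin (ang i)
    set c := Real.cos (ang i)
    have h3 : s ^ 2 ≤ 1 := by nlinarith [sq_nonneg c]
    have h4 : 0 ≤ s ^ 2 := sq_nonneg s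
    constructor
    · nlinarith [h2.1]
    · have e : (1 + s ^ 2 * p) * (1 + 0 + c ^ 2 * p) - (-(s * c) * p) ^ 2 = 1 + p := by
        linear_combination p * h1
      rw [e]
      linarith [h2.1]

end P229.G
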