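import Vale.Agent.P229.G.Base

/-! # P229 block G, module GNORM: where the metric is Euclidean to first order the second
derivatives of the immersion are normal. -/

namespace P229.G

open Set Real Filter Topology
open scoped ContDiff

/-- first partial derivative -/
noncomputable def pa (Φ : ℝ × ℝ → E3) (x : ℝ × ℝ) : E3 := fderiv ℝ Φ x (1, 0)

/-- second partial derivative -/
noncomputable def pb (Φ : ℝ × ℝ → E3) (x : ℝ × ℝ) : E3 := fderiv ℝ Φ x (0, 1)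

/-- the metric equations on a set -/
structure IsoOn (Φ : ℝ × ℝ → E3) (E F G : ℝ × ℝ → ℝ) (U : Set (ℝ × ℝ)) : Prop where
  smooth : ContDiffOn ℝ ∞ Φ U
  e11 : ∀ q ∈ U, inner ℝ (pa Φ q) (pa Φ q) = E q
  e12 : ∀ q ∈ U, inner ℝ (pa Φ q) (pb Φ q) = F q
  e22 : ∀ q ∈ U, inner ℝ (pb Φ q) (pb Φ q) = G q

theorem gn_smooth (Φ : ℝ × ℝ → E3) (U : Set (ℝ × ℝ)) (hU : IsOpen U) (h : ContDiffOn ℝ ∞ Φ U)
    (v : ℝ × ℝ) : ContDiffOn ℝ ∞ (fun x => fderiv ℝ Φ x v) U := by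
  have h1 : ContDiffOn ℝ ∞ (fderiv ℝ Φ) U := h.fderiv_of_isOpen hU (by simp)
  exact h1.clm_apply contDiffOn_const

theorem gn_snd (Φ : ℝ × ℝ → E3) (U : Set (ℝ × ℝ)) (hU : IsOpen U) (h : ContDiffOn ℝ ∞ Φ U)
    (v w : ℝ × ℝ) (x : ℝ × ℝ) (hx : x ∈ U) :
    fderiv ℝ (fun x => fderiv ℝ Φ x v) x w = fderiv ℝ (fderiv ℝ Φ) x w v := by
  have h1 : ContDiffOn ℝ ∞ (fderiv ℝ Φ) U := h.fderiv_of_isOpen hU (by simp)
  have h2 : DifferentiableAt ℝ (fderiv ℝ Φ) x :=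
    ((h1.contDiffAt (hU.mem_nhds hx)).differentiableAt (by simp))
  rw [fderiv_clm_apply h2 (differentiableAt_const v)]
  simp

theorem gn_symm (Φ : ℝ × ℝ → E3) (U : Set (ℝ × ℝ)) (hU : IsOpen U) (h : ContDiffOn ℝ ∞ Φ U)
    (v w : ℝ × ℝ) (x : ℝ × ℝ) (hx : x ∈ U) :
    fderiv ℝ (fderiv ℝ Φ) x w v = fderiv ℝ (fderiv ℝ Φ) x v w := by
  have h1 : ContDiffAt ℝ ∞ Φ x := h.contDiffAt (hU.mem_nhds hx)
  exact (h1.isSymmSndFDerivAt (by
    rw [minSmoothness_of_isRCLikeNormedField]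
    exact WithTop.coe_le_coe.mpr (le_top : (2 : ℕ∞) ≤ ⊤))) w v

theorem gn_inner (f g : ℝ × ℝ → E3) (H : ℝ × ℝ → ℝ) (U : Set (ℝ × ℝ)) (hU : IsOpen U)
    (hf : ContDiffOn ℝ ∞ f U) (hg : ContDiffOn ℝ ∞ g U) (h : ∀ x ∈ U, inner ℝ (f x) (g x) = H x)
    (q : ℝ × ℝ) (hq : q ∈ U) (hH : fderiv ℝ H q = 0) (w : ℝ × ℝ) :
    inner ℝ (f q) (fderiv ℝ g q w) + inner ℝ (fderiv ℝ f q w) (g q) = 0 := by
  have h1 : (fun x => inner ℝ (f x) (g x)) =ᶠ[𝓝 q] H := by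
    filter_upwards [hU.mem_nhds hq] with x hx
    exact h x hx
  have h2 := h1.fderiv_eq (𝕜 := ℝ)
  rw [hH] at h2
  have hf' : DifferentiableAt ℝ f q :=
    (hf.contDiffAt (hU.mem_nhds hq)).differentiableAt (by simp)
  have hg' : DifferentiableAt ℝ g q :=
    (hg.contDiffAt (hU.mem_nhds hq)).differentiableAt (by simp)
  have h3 := fderiv_inner_apply (𝕜 := ℝ) hf' hg' w
  rw [h2] at h3
  simpa using h3.symm

/-- The second derivatives are orthogonal to the tangent plane. -/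
theorem gn_normal (Φ : ℝ × ℝ → E3) (E F G : ℝ × ℝ → ℝ) (U : Set (ℝ × ℝ)) (hU : IsOpen U)
    (h : IsoOn Φ E F G U) (q : ℝ × ℝ) (hq : q ∈ U) (hE : fderiv ℝ E q = 0)
    (hF : fderiv ℝ F q = 0) (hG : fderiv ℝ G q = 0) (v w : ℝ × ℝ) :
    inner ℝ (pa Φ q) (fderiv ℝ (fderiv ℝ Φ) q v w) = 0 ∧
      inner ℝ (pb Φ q) (fderiv ℝ (fderiv ℝ Φ) q v w) = 0 := by
  have sa : ContDiffOn ℝ ∞ (pa Φ) U := gn_smooth Φ U hU h.smooth _
  have sb : ContDiffOn ℝ ∞ (pb Φ) U := gn_smooth Φ U hU h.smooth _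
  have da : ∀ w, fderiv ℝ (pa Φ) q w = fderiv ℝ (fderiv ℝ Φ) q w (1, 0) :=
    fun w => gn_snd Φ U hU h.smooth _ w q hq
  have db : ∀ w, fderiv ℝ (pb Φ) q w = fderiv ℝ (fderiv ℝ Φ) q w (0, 1) :=
    fun w => gn_snd Φ U hU h.smooth _ w q hq
  have sy := gn_symm Φ U hU h.smooth (0, 1) (1, 0) q hq
  set S := fderiv ℝ (fderiv ℝ Φ) q with hS
  have k1 : ∀ w, inner ℝ (pa Φ q) (S w (1, 0)) = 0 := by
    intro w
    have := gn_inner _ _ E U hU sa sa h.e11 q hq hE w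
    rw [da, real_inner_comm] at this
    rw [real_inner_comm]
    linarith
  have k2 : ∀ w, inner ℝ (pb Φ q) (S w (0, 1)) = 0 := by
    intro w
    have := gn_inner _ _ G U hU sb sb h.e22 q hq hG w
    rw [db, real_inner_comm] at this
    rw [real_inner_comm]
    linarith
  have k3 : ∀ w, inner ℝ (pa Φ q) (S w (0, 1)) + inner ℝ (pb Φ q) (S w (1, 0)) = 0 := by
    intro w
    have := gn_inner _ _ F U hU sa sb h.e12 q hq hF w
    rw [da, db] at this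
    rw [real_inner_comm (S w (1, 0)) (pb Φ q)]
    linarith
  have a11 := k1 (1, 0)
  have a12 := k1 (0, 1)
  have b22 := k2 (0, 1)
  have b12 := k2 (1, 0)
  have c1 := k3 (1, 0)
  have c2 := k3 (0, 1)
  rw [← sy] at a12 c2
  have a22 : inner ℝ (pa Φ q) (S (0, 1) (0, 1)) = 0 := by linarith
  have b11 : inner ℝ (pb Φ q) (S (1, 0) (1, 0)) = 0 := by linarith
  have hexp : S v w = (v.1 * w.1) • S (1, 0) (1, 0) + (v.1 * w.2 + v.2 * w.1) • S (1, 0) (0, 1)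
      + (v.2 * w.2) • S (0, 1) (0, 1) := by
    have hv : v = v.1 • ((1, 0) : ℝ × ℝ) + v.2 • ((0, 1) : ℝ × ℝ) := by
      ext <;> simp
    have hw : w = w.1 • ((1, 0) : ℝ × ℝ) + w.2 • ((0, 1) : ℝ × ℝ) := by
      ext <;> simp
    conv_lhs => rw [hv, hw]
    simp only [map_add, map_smul, add_apply, smul_apply,
      ← sy]
    module
  rw [hexp]
  simp only [inner_add_right, inner_smul_right, a11, a12, a22, b11, b12, b22]
  simp

end P229.G
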